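import Mathlib
import Vale.Agent.Lib.P066.FourBase

namespace Vale.Agent.Lib.P066

open Finset Polynomial

variable {A : Type*} [CommRing A]

lemma ew4_0_0 (q : A) : ew q (0 : Fin 4) 0 = 0 := by simp [ew]

lemma ew4_0_1 (q : A) : ew q (0 : Fin 4) 1 = q := by simp [ew]

lemma ew4_0_2 (q : A) : ew q (0 : Fin 4) 2 = q := by simp [ew]

lemma ew4_0_3 (q : A) : ew q (0 : Fin 4) 3 = q := by simp [ew]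

lemma ew4_1_0 (q : A) : ew q (1 : Fin 4) 0 = 1 := by simp [ew]

lemma ew4_1_1 (q : A) : ew q (1 : Fin 4) 1 = 0 := by simp [ew]

lemma ew4_1_2 (q : A) : ew q (1 : Fin 4) 2 = q := by simp [ew]

lemma ew4_1_3 (q : A) : ew q (1 : Fin 4) 3 = q := by simp [ew]

lemma ew4_2_0 (q : A) : ew q (2 : Fin 4) 0 = 1 := by simp [ew]

lemma ew4_2_1 (q : A) : ew q (2 : Fin 4) 1 = 1 := by simp [ew]

lemma ew4_2_2 (q : A) : ew q (2 : Fin 4) 2 = 0 := by simp [ew]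

lemma ew4_2_3 (q : A) : ew q (2 : Fin 4) 3 = q := by simp [ew]

lemma ew4_3_0 (q : A) : ew q (3 : Fin 4) 0 = 1 := by simp [ew]

lemma ew4_3_1 (q : A) : ew q (3 : Fin 4) 1 = 1 := by simp [ew]

lemma ew4_3_2 (q : A) : ew q (3 : Fin 4) 2 = 1 := by simp [ew]

lemma ew4_3_3 (q : A) : ew q (3 : Fin 4) 3 = 0 := by simp [ew]

/-- a statement about two different colours out of four follows from its twelve instances -/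
lemma offdiag4 {P : Fin 4 → Fin 4 → Prop} (h01 : P 0 1) (h02 : P 0 2) (h03 : P 0 3)
    (h10 : P 1 0) (h12 : P 1 2) (h13 : P 1 3) (h20 : P 2 0) (h21 : P 2 1) (h23 : P 2 3)
    (h30 : P 3 0) (h31 : P 3 1) (h32 : P 3 2) : ∀ u v : Fin 4, u ≠ v → P u v := by
  intro u v huv
  fin_cases u <;> fin_cases v
  · exact absurd rfl huv
  · exact h01
  · exact h02
  · exact h03
  · exact h10
  · exact absurd rfl huv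
  · exact h12
  · exact h13
  · exact h20
  · exact h21
  · exact absurd rfl huv
  · exact h23
  · exact h30
  · exact h31
  · exact h32
  · exact absurd rfl huv

/-- a statement about one colour out of four follows from its four instances -/
lemma all4 {P : Fin 4 → Prop} (h0 : P 0) (h1 : P 1) (h2 : P 2) (h3 : P 3) : ∀ u : Fin 4, P u := by
  intro u
  fin_cases u
  · exact h0
  · exact h1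
  · exact h2
  · exact h3

/-- value table, in four variables, of the first elementary symmetric polynomial of the two colours different from both arguments -/
def gS1 (q : A) (x : Fin 4 → A) : Fin 4 → Fin 4 → A
  | 0, 1 => x 3 + x 2
  | 0, 2 => x 3 + q * x 1
  | 0, 3 => q * x 2 + q * x 1
  | 1, 0 => x 3 + x 2
  | 1, 2 => x 3 + q ^ 2 * x 0
  | 1, 3 => q * x 2 + q ^ 2 * x 0
  | 2, 0 => x 3 + q * x 1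
  | 2, 1 => x 3 + q ^ 2 * x 0
  | 2, 3 => q ^ 2 * x 1 + q ^ 2 * x 0
  | 3, 0 => q * x 2 + q * x 1
  | 3, 1 => q * x 2 + q ^ 2 * x 0
  | 3, 2 => q ^ 2 * x 1 + q ^ 2 * x 0
  | _, _ => 0

/-- value table, in four variables, of the second elementary symmetric polynomial of the two colours different from both arguments -/
def gS2 (q : A) (x : Fin 4 → A) : Fin 4 → Fin 4 → A
  | 0, 1 => x 2 * x 3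
  | 0, 2 => q * x 1 * x 3
  | 0, 3 => q ^ 2 * x 1 * x 2
  | 1, 0 => x 2 * x 3
  | 1, 2 => q ^ 2 * x 0 * x 3
  | 1, 3 => q ^ 3 * x 0 * x 2
  | 2, 0 => q * x 1 * x 3
  | 2, 1 => q ^ 2 * x 0 * x 3
  | 2, 3 => q ^ 4 * x 0 * x 1
  | 3, 0 => q ^ 2 * x 1 * x 2
  | 3, 1 => q ^ 3 * x 0 * x 2
  | 3, 2 => q ^ 4 * x 0 * x 1
  | _, _ => 0

/-- value table, in four variables, of the constant one -/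
def gD0 (_q : A) (_x : Fin 4 → A) : Fin 4 → Fin 4 → A
  | 0, 1 => 1
  | 0, 2 => 1
  | 0, 3 => 1
  | 1, 0 => 1
  | 1, 2 => 1
  | 1, 3 => 1
  | 2, 0 => 1
  | 2, 1 => 1
  | 2, 3 => 1
  | 3, 0 => 1
  | 3, 1 => 1
  | 3, 2 => 1
  | _, _ => 0

/-- value table, in four variables, of the generator `D_1` of the first colour -/
def gD1 (q : A) (x : Fin 4 → A) : Fin 4 → Fin 4 → A
  | 0, 1 => x 3 + x 2 + x 1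
  | 0, 2 => x 3 + x 2 + x 1
  | 0, 3 => x 3 + x 2 + x 1
  | 1, 0 => x 3 + x 2 + q * x 0
  | 1, 2 => x 3 + x 2 + q * x 0
  | 1, 3 => x 3 + x 2 + q * x 0
  | 2, 0 => x 3 + q * x 1 + q * x 0
  | 2, 1 => x 3 + q * x 1 + q * x 0
  | 2, 3 => x 3 + q * x 1 + q * x 0
  | 3, 0 => q * x 2 + q * x 1 + q * x 0
  | 3, 1 => q * x 2 + q * x 1 + q * x 0
  | 3, 2 => q * x 2 + q * x 1 + q * x 0
  | _, _ => 0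

/-- value table, in four variables, of the generator `D_2` of the first colour -/
def gD2 (q : A) (x : Fin 4 → A) : Fin 4 → Fin 4 → A
  | 0, 1 => x 2 * x 3 + x 1 * x 3 + x 1 * x 2
  | 0, 2 => x 2 * x 3 + x 1 * x 3 + x 1 * x 2
  | 0, 3 => x 2 * x 3 + x 1 * x 3 + x 1 * x 2
  | 1, 0 => x 2 * x 3 + q * x 0 * x 3 + q * x 0 * x 2
  | 1, 2 => x 2 * x 3 + q * x 0 * x 3 + q * x 0 * x 2
  | 1, 3 => x 2 * x 3 + q * x 0 * x 3 + q * x 0 * x 2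
  | 2, 0 => q * x 1 * x 3 + q * x 0 * x 3 + q ^ 2 * x 0 * x 1
  | 2, 1 => q * x 1 * x 3 + q * x 0 * x 3 + q ^ 2 * x 0 * x 1
  | 2, 3 => q * x 1 * x 3 + q * x 0 * x 3 + q ^ 2 * x 0 * x 1
  | 3, 0 => q ^ 2 * x 1 * x 2 + q ^ 2 * x 0 * x 2 + q ^ 2 * x 0 * x 1
  | 3, 1 => q ^ 2 * x 1 * x 2 + q ^ 2 * x 0 * x 2 + q ^ 2 * x 0 * x 1
  | 3, 2 => q ^ 2 * x 1 * x 2 + q ^ 2 * x 0 * x 2 + q ^ 2 * x 0 * x 1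
  | _, _ => 0

/-- value table, in four variables, of the generator `D_3` of the first colour -/
def gD3 (q : A) (x : Fin 4 → A) : Fin 4 → Fin 4 → A
  | 0, 1 => x 1 * x 2 * x 3
  | 0, 2 => x 1 * x 2 * x 3
  | 0, 3 => x 1 * x 2 * x 3
  | 1, 0 => q * x 0 * x 2 * x 3
  | 1, 2 => q * x 0 * x 2 * x 3
  | 1, 3 => q * x 0 * x 2 * x 3
  | 2, 0 => q ^ 2 * x 0 * x 1 * x 3
  | 2, 1 => q ^ 2 * x 0 * x 1 * x 3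
  | 2, 3 => q ^ 2 * x 0 * x 1 * x 3
  | 3, 0 => q ^ 3 * x 0 * x 1 * x 2
  | 3, 1 => q ^ 3 * x 0 * x 1 * x 2
  | 3, 2 => q ^ 3 * x 0 * x 1 * x 2
  | _, _ => 0

/-- value table, in four variables, of the generator `X(0,1)` -/
def gX01 (q : A) (x : Fin 4 → A) : Fin 4 → Fin 4 → A
  | 0, 1 => x 2 * x 3 + q * x 2 * x 3 + q * x 1 * x 3 + q * x 1 * x 2 + q * x 0 * x 3 + q * x 0 * x 2
  | 0, 2 => q * x 2 * x 3 + 2 * q * x 1 * x 3 + q * x 1 * x 2 + q * x 0 * x 3 + q ^ 2 * x 0 * x 1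
  | 0, 3 => q * x 2 * x 3 + q * x 1 * x 3 + q * x 1 * x 2 + q ^ 2 * x 1 * x 2 + q ^ 2 * x 0 * x 2 + q ^ 2 * x 0 * x 1
  | 1, 0 => x 2 * x 3 + q * x 2 * x 3 + q * x 1 * x 3 + q * x 1 * x 2 + q * x 0 * x 3 + q * x 0 * x 2
  | 1, 2 => q * x 2 * x 3 + q * x 1 * x 3 + q * x 0 * x 3 + q ^ 2 * x 0 * x 3 + q ^ 2 * x 0 * x 2 + q ^ 2 * x 0 * x 1
  | 1, 3 => q * x 2 * x 3 + q ^ 2 * x 1 * x 2 + q ^ 2 * x 0 * x 3 + 2 * q ^ 2 * x 0 * x 2 + q ^ 2 * x 0 * x 1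
  | 2, 0 => q * x 2 * x 3 + 2 * q * x 1 * x 3 + q * x 1 * x 2 + q * x 0 * x 3 + q ^ 2 * x 0 * x 1
  | 2, 1 => q * x 2 * x 3 + q * x 1 * x 3 + q * x 0 * x 3 + q ^ 2 * x 0 * x 3 + q ^ 2 * x 0 * x 2 + q ^ 2 * x 0 * x 1
  | 2, 3 => q ^ 2 * x 1 * x 3 + q ^ 2 * x 1 * x 2 + q ^ 2 * x 0 * x 3 + q ^ 2 * x 0 * x 2 + q ^ 2 * x 0 * x 1 + q ^ 3 * x 0 * x 1
  | 3, 0 => q * x 2 * x 3 + q * x 1 * x 3 + q * x 1 * x 2 + q ^ 2 * x 1 * x 2 + q ^ 2 * x 0 * x 2 + q ^ 2 * x 0 * x 1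
  | 3, 1 => q * x 2 * x 3 + q ^ 2 * x 1 * x 2 + q ^ 2 * x 0 * x 3 + 2 * q ^ 2 * x 0 * x 2 + q ^ 2 * x 0 * x 1
  | 3, 2 => q ^ 2 * x 1 * x 3 + q ^ 2 * x 1 * x 2 + q ^ 2 * x 0 * x 3 + q ^ 2 * x 0 * x 2 + q ^ 2 * x 0 * x 1 + q ^ 3 * x 0 * x 1
  | _, _ => 0

/-- value table, in four variables, of the corrected generator `X(0,2)` -/
def gX02 (q : A) (x : Fin 4 → A) : Fin 4 → Fin 4 → A
  | 0, 1 => q * x 1 * x 2 * x 3 + q * x 0 * x 2 * x 3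
  | 0, 2 => q * x 1 * x 2 * x 3 + q ^ 2 * x 0 * x 1 * x 3
  | 0, 3 => q * x 1 * x 2 * x 3 + q ^ 3 * x 0 * x 1 * x 2
  | 1, 0 => q * x 1 * x 2 * x 3 + q * x 0 * x 2 * x 3
  | 1, 2 => q ^ 2 * x 0 * x 2 * x 3 + q ^ 2 * x 0 * x 1 * x 3
  | 1, 3 => q ^ 2 * x 0 * x 2 * x 3 + q ^ 3 * x 0 * x 1 * x 2
  | 2, 0 => q * x 1 * x 2 * x 3 + q ^ 2 * x 0 * x 1 * x 3
  | 2, 1 => q ^ 2 * x 0 * x 2 * x 3 + q ^ 2 * x 0 * x 1 * x 3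
  | 2, 3 => q ^ 3 * x 0 * x 1 * x 3 + q ^ 3 * x 0 * x 1 * x 2
  | 3, 0 => q * x 1 * x 2 * x 3 + q ^ 3 * x 0 * x 1 * x 2
  | 3, 1 => q ^ 2 * x 0 * x 2 * x 3 + q ^ 3 * x 0 * x 1 * x 2
  | 3, 2 => q ^ 3 * x 0 * x 1 * x 3 + q ^ 3 * x 0 * x 1 * x 2
  | _, _ => 0

/-- value table, in four variables, of the generator `X(1,2)` -/
def gX12 (q : A) (x : Fin 4 → A) : Fin 4 → Fin 4 → A
  | 0, 1 => q ^ 2 * x 1 * x 2 * x 3 ^ 2 + q ^ 2 * x 1 * x 2 ^ 2 * x 3 + q ^ 2 * x 0 * x 2 * x 3 ^ 2 + q ^ 2 * x 0 * x 2 ^ 2 * x 3 + q ^ 2 * x 0 * x 1 * x 2 * x 3 + q ^ 3 * x 0 * x 1 * x 2 * x 3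
  | 0, 2 => q ^ 2 * x 1 * x 2 * x 3 ^ 2 + q ^ 3 * x 1 ^ 2 * x 2 * x 3 + q ^ 3 * x 0 * x 1 * x 3 ^ 2 + 2 * q ^ 3 * x 0 * x 1 * x 2 * x 3 + q ^ 3 * x 0 * x 1 ^ 2 * x 3
  | 0, 3 => q ^ 3 * x 1 * x 2 ^ 2 * x 3 + q ^ 3 * x 1 ^ 2 * x 2 * x 3 + q ^ 3 * x 0 * x 1 * x 2 * x 3 + q ^ 4 * x 0 * x 1 * x 2 * x 3 + q ^ 4 * x 0 * x 1 * x 2 ^ 2 + q ^ 4 * x 0 * x 1 ^ 2 * x 2
  | 1, 0 => q ^ 2 * x 1 * x 2 * x 3 ^ 2 + q ^ 2 * x 1 * x 2 ^ 2 * x 3 + q ^ 2 * x 0 * x 2 * x 3 ^ 2 + q ^ 2 * x 0 * x 2 ^ 2 * x 3 + q ^ 2 * x 0 * x 1 * x 2 * x 3 + q ^ 3 * x 0 * x 1 * x 2 * x 3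
  | 1, 2 => q ^ 3 * x 0 * x 2 * x 3 ^ 2 + q ^ 3 * x 0 * x 1 * x 3 ^ 2 + q ^ 3 * x 0 * x 1 * x 2 * x 3 + q ^ 4 * x 0 * x 1 * x 2 * x 3 + q ^ 4 * x 0 ^ 2 * x 2 * x 3 + q ^ 4 * x 0 ^ 2 * x 1 * x 3
  | 1, 3 => q ^ 4 * x 0 * x 2 ^ 2 * x 3 + 2 * q ^ 4 * x 0 * x 1 * x 2 * x 3 + q ^ 4 * x 0 * x 1 * x 2 ^ 2 + q ^ 4 * x 0 ^ 2 * x 2 * x 3 + q ^ 5 * x 0 ^ 2 * x 1 * x 2
  | 2, 0 => q ^ 2 * x 1 * x 2 * x 3 ^ 2 + q ^ 3 * x 1 ^ 2 * x 2 * x 3 + q ^ 3 * x 0 * x 1 * x 3 ^ 2 + 2 * q ^ 3 * x 0 * x 1 * x 2 * x 3 + q ^ 3 * x 0 * x 1 ^ 2 * x 3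
  | 2, 1 => q ^ 3 * x 0 * x 2 * x 3 ^ 2 + q ^ 3 * x 0 * x 1 * x 3 ^ 2 + q ^ 3 * x 0 * x 1 * x 2 * x 3 + q ^ 4 * x 0 * x 1 * x 2 * x 3 + q ^ 4 * x 0 ^ 2 * x 2 * x 3 + q ^ 4 * x 0 ^ 2 * x 1 * x 3
  | 2, 3 => q ^ 4 * x 0 * x 1 * x 2 * x 3 + q ^ 5 * x 0 * x 1 * x 2 * x 3 + q ^ 5 * x 0 * x 1 ^ 2 * x 3 + q ^ 5 * x 0 * x 1 ^ 2 * x 2 + q ^ 5 * x 0 ^ 2 * x 1 * x 3 + q ^ 5 * x 0 ^ 2 * x 1 * x 2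
  | 3, 0 => q ^ 3 * x 1 * x 2 ^ 2 * x 3 + q ^ 3 * x 1 ^ 2 * x 2 * x 3 + q ^ 3 * x 0 * x 1 * x 2 * x 3 + q ^ 4 * x 0 * x 1 * x 2 * x 3 + q ^ 4 * x 0 * x 1 * x 2 ^ 2 + q ^ 4 * x 0 * x 1 ^ 2 * x 2
  | 3, 1 => q ^ 4 * x 0 * x 2 ^ 2 * x 3 + 2 * q ^ 4 * x 0 * x 1 * x 2 * x 3 + q ^ 4 * x 0 * x 1 * x 2 ^ 2 + q ^ 4 * x 0 ^ 2 * x 2 * x 3 + q ^ 5 * x 0 ^ 2 * x 1 * x 2
  | 3, 2 => q ^ 4 * x 0 * x 1 * x 2 * x 3 + q ^ 5 * x 0 * x 1 * x 2 * x 3 + q ^ 5 * x 0 * x 1 ^ 2 * x 3 + q ^ 5 * x 0 * x 1 ^ 2 * x 2 + q ^ 5 * x 0 ^ 2 * x 1 * x 3 + q ^ 5 * x 0 ^ 2 * x 1 * x 2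
  | _, _ => 0

/-- value table, in four variables, of the generator `T(1,1)` -/
def gT11 (q : A) (x : Fin 4 → A) : Fin 4 → Fin 4 → A
  | 0, 1 => q * x 2 * x 3 ^ 2 + q * x 2 ^ 2 * x 3 + q * x 1 * x 3 ^ 2 + 3 * q * x 1 * x 2 * x 3 + q * x 1 * x 2 ^ 2 + q * x 0 * x 2 * x 3 + q ^ 2 * x 1 * x 2 * x 3 + q ^ 2 * x 0 * x 2 * x 3 + q ^ 2 * x 0 * x 1 * x 3 + q ^ 2 * x 0 * x 1 * x 2
  | 0, 2 => q * x 2 * x 3 ^ 2 + q * x 1 * x 3 ^ 2 + 2 * q * x 1 * x 2 * x 3 + 2 * q ^ 2 * x 1 * x 2 * x 3 + q ^ 2 * x 1 ^ 2 * x 3 + q ^ 2 * x 1 ^ 2 * x 2 + q ^ 2 * x 0 * x 2 * x 3 + 2 * q ^ 2 * x 0 * x 1 * x 3 + q ^ 2 * x 0 * x 1 * x 2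
  | 0, 3 => q * x 1 * x 2 * x 3 + q ^ 2 * x 2 ^ 2 * x 3 + 3 * q ^ 2 * x 1 * x 2 * x 3 + q ^ 2 * x 1 * x 2 ^ 2 + q ^ 2 * x 1 ^ 2 * x 3 + q ^ 2 * x 1 ^ 2 * x 2 + q ^ 2 * x 0 * x 2 * x 3 + q ^ 2 * x 0 * x 1 * x 3 + q ^ 2 * x 0 * x 1 * x 2 + q ^ 3 * x 0 * x 1 * x 2
  | 1, 0 => q * x 2 * x 3 ^ 2 + q * x 2 ^ 2 * x 3 + q * x 1 * x 2 * x 3 + q * x 0 * x 2 * x 3 + q ^ 2 * x 1 * x 2 * x 3 + q ^ 2 * x 0 * x 3 ^ 2 + 3 * q ^ 2 * x 0 * x 2 * x 3 + q ^ 2 * x 0 * x 2 ^ 2 + q ^ 2 * x 0 * x 1 * x 3 + q ^ 2 * x 0 * x 1 * x 2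
  | 1, 2 => q * x 2 * x 3 ^ 2 + q ^ 2 * x 1 * x 2 * x 3 + q ^ 2 * x 0 * x 3 ^ 2 + 3 * q ^ 2 * x 0 * x 2 * x 3 + q ^ 2 * x 0 * x 1 * x 3 + q ^ 3 * x 0 * x 2 * x 3 + q ^ 3 * x 0 * x 1 * x 3 + q ^ 3 * x 0 * x 1 * x 2 + q ^ 3 * x 0 ^ 2 * x 3 + q ^ 3 * x 0 ^ 2 * x 2
  | 1, 3 => q ^ 2 * x 2 ^ 2 * x 3 + q ^ 2 * x 1 * x 2 * x 3 + 2 * q ^ 2 * x 0 * x 2 * x 3 + 2 * q ^ 3 * x 0 * x 2 * x 3 + q ^ 3 * x 0 * x 2 ^ 2 + q ^ 3 * x 0 * x 1 * x 3 + 2 * q ^ 3 * x 0 * x 1 * x 2 + q ^ 3 * x 0 ^ 2 * x 3 + q ^ 3 * x 0 ^ 2 * x 2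
  | 2, 0 => q ^ 2 * x 1 * x 3 ^ 2 + 2 * q ^ 2 * x 1 * x 2 * x 3 + q ^ 2 * x 1 ^ 2 * x 3 + q ^ 2 * x 0 * x 3 ^ 2 + q ^ 2 * x 0 * x 2 * x 3 + 2 * q ^ 2 * x 0 * x 1 * x 3 + 2 * q ^ 3 * x 0 * x 1 * x 3 + q ^ 3 * x 0 * x 1 * x 2 + q ^ 3 * x 0 * x 1 ^ 2
  | 2, 1 => q ^ 2 * x 1 * x 3 ^ 2 + q ^ 2 * x 1 * x 2 * x 3 + q ^ 2 * x 0 * x 3 ^ 2 + q ^ 2 * x 0 * x 2 * x 3 + q ^ 2 * x 0 * x 1 * x 3 + q ^ 3 * x 0 * x 2 * x 3 + 3 * q ^ 3 * x 0 * x 1 * x 3 + q ^ 3 * x 0 * x 1 * x 2 + q ^ 3 * x 0 ^ 2 * x 3 + q ^ 4 * x 0 ^ 2 * x 1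
  | 2, 3 => q ^ 3 * x 1 * x 2 * x 3 + q ^ 3 * x 1 ^ 2 * x 3 + q ^ 3 * x 0 * x 2 * x 3 + 3 * q ^ 3 * x 0 * x 1 * x 3 + q ^ 3 * x 0 * x 1 * x 2 + q ^ 3 * x 0 ^ 2 * x 3 + q ^ 4 * x 0 * x 1 * x 3 + q ^ 4 * x 0 * x 1 * x 2 + q ^ 4 * x 0 * x 1 ^ 2 + q ^ 4 * x 0 ^ 2 * x 1
  | 3, 0 => q ^ 2 * x 1 * x 2 * x 3 + q ^ 3 * x 1 * x 2 * x 3 + q ^ 3 * x 1 * x 2 ^ 2 + q ^ 3 * x 1 ^ 2 * x 2 + q ^ 3 * x 0 * x 2 * x 3 + q ^ 3 * x 0 * x 2 ^ 2 + q ^ 3 * x 0 * x 1 * x 3 + 3 * q ^ 3 * x 0 * x 1 * x 2 + q ^ 3 * x 0 * x 1 ^ 2 + q ^ 4 * x 0 * x 1 * x 2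
  | 3, 1 => q ^ 3 * x 1 * x 2 * x 3 + q ^ 3 * x 1 * x 2 ^ 2 + 2 * q ^ 3 * x 0 * x 2 * x 3 + q ^ 3 * x 0 * x 2 ^ 2 + q ^ 3 * x 0 * x 1 * x 3 + 2 * q ^ 3 * x 0 * x 1 * x 2 + 2 * q ^ 4 * x 0 * x 1 * x 2 + q ^ 4 * x 0 ^ 2 * x 2 + q ^ 4 * x 0 ^ 2 * x 1
  | 3, 2 => q ^ 3 * x 1 * x 2 * x 3 + q ^ 3 * x 0 * x 2 * x 3 + q ^ 3 * x 0 * x 1 * x 3 + q ^ 3 * x 0 * x 1 * x 2 + q ^ 4 * x 1 ^ 2 * x 2 + q ^ 4 * x 0 * x 1 * x 3 + 3 * q ^ 4 * x 0 * x 1 * x 2 + q ^ 4 * x 0 * x 1 ^ 2 + q ^ 4 * x 0 ^ 2 * x 2 + q ^ 4 * x 0 ^ 2 * x 1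
  | _, _ => 0

/-- value table, in four variables, of the corrected generator `T(1,2)` -/
def gT12 (q : A) (x : Fin 4 → A) : Fin 4 → Fin 4 → A
  | 0, 1 => q * x 1 * x 2 * x 3 ^ 2 + q * x 1 * x 2 ^ 2 * x 3 + q ^ 2 * x 0 * x 1 * x 2 * x 3
  | 0, 2 => q * x 1 * x 2 * x 3 ^ 2 + q ^ 2 * x 1 ^ 2 * x 2 * x 3 + q ^ 2 * x 0 * x 1 * x 2 * x 3
  | 0, 3 => q ^ 2 * x 1 * x 2 ^ 2 * x 3 + q ^ 2 * x 1 ^ 2 * x 2 * x 3 + q ^ 2 * x 0 * x 1 * x 2 * x 3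
  | 1, 0 => q ^ 2 * x 0 * x 2 * x 3 ^ 2 + q ^ 2 * x 0 * x 2 ^ 2 * x 3 + q ^ 2 * x 0 * x 1 * x 2 * x 3
  | 1, 2 => q ^ 2 * x 0 * x 2 * x 3 ^ 2 + q ^ 3 * x 0 * x 1 * x 2 * x 3 + q ^ 3 * x 0 ^ 2 * x 2 * x 3
  | 1, 3 => q ^ 3 * x 0 * x 2 ^ 2 * x 3 + q ^ 3 * x 0 * x 1 * x 2 * x 3 + q ^ 3 * x 0 ^ 2 * x 2 * x 3
  | 2, 0 => q ^ 3 * x 0 * x 1 * x 3 ^ 2 + q ^ 3 * x 0 * x 1 * x 2 * x 3 + q ^ 3 * x 0 * x 1 ^ 2 * x 3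
  | 2, 1 => q ^ 3 * x 0 * x 1 * x 3 ^ 2 + q ^ 3 * x 0 * x 1 * x 2 * x 3 + q ^ 4 * x 0 ^ 2 * x 1 * x 3
  | 2, 3 => q ^ 4 * x 0 * x 1 * x 2 * x 3 + q ^ 4 * x 0 * x 1 ^ 2 * x 3 + q ^ 4 * x 0 ^ 2 * x 1 * x 3
  | 3, 0 => q ^ 4 * x 0 * x 1 * x 2 * x 3 + q ^ 4 * x 0 * x 1 * x 2 ^ 2 + q ^ 4 * x 0 * x 1 ^ 2 * x 2
  | 3, 1 => q ^ 4 * x 0 * x 1 * x 2 * x 3 + q ^ 4 * x 0 * x 1 * x 2 ^ 2 + q ^ 5 * x 0 ^ 2 * x 1 * x 2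
  | 3, 2 => q ^ 4 * x 0 * x 1 * x 2 * x 3 + q ^ 5 * x 0 * x 1 ^ 2 * x 2 + q ^ 5 * x 0 ^ 2 * x 1 * x 2
  | _, _ => 0

/-- value table, in four variables, of the generator `T(2,2)` -/
def gT22 (q : A) (x : Fin 4 → A) : Fin 4 → Fin 4 → A
  | 0, 1 => q ^ 2 * x 1 * x 2 ^ 2 * x 3 ^ 2 + q ^ 3 * x 0 * x 1 * x 2 * x 3 ^ 2 + q ^ 3 * x 0 * x 1 * x 2 ^ 2 * x 3
  | 0, 2 => q ^ 3 * x 1 ^ 2 * x 2 * x 3 ^ 2 + q ^ 3 * x 0 * x 1 * x 2 * x 3 ^ 2 + q ^ 4 * x 0 * x 1 ^ 2 * x 2 * x 3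
  | 0, 3 => q ^ 4 * x 1 ^ 2 * x 2 ^ 2 * x 3 + q ^ 4 * x 0 * x 1 * x 2 ^ 2 * x 3 + q ^ 4 * x 0 * x 1 ^ 2 * x 2 * x 3
  | 1, 0 => q ^ 3 * x 0 * x 2 ^ 2 * x 3 ^ 2 + q ^ 3 * x 0 * x 1 * x 2 * x 3 ^ 2 + q ^ 3 * x 0 * x 1 * x 2 ^ 2 * x 3
  | 1, 2 => q ^ 4 * x 0 * x 1 * x 2 * x 3 ^ 2 + q ^ 4 * x 0 ^ 2 * x 2 * x 3 ^ 2 + q ^ 5 * x 0 ^ 2 * x 1 * x 2 * x 3
  | 1, 3 => q ^ 5 * x 0 * x 1 * x 2 ^ 2 * x 3 + q ^ 5 * x 0 ^ 2 * x 2 ^ 2 * x 3 + q ^ 5 * x 0 ^ 2 * x 1 * x 2 * x 3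
  | 2, 0 => q ^ 4 * x 0 * x 1 * x 2 * x 3 ^ 2 + q ^ 4 * x 0 * x 1 ^ 2 * x 3 ^ 2 + q ^ 4 * x 0 * x 1 ^ 2 * x 2 * x 3
  | 2, 1 => q ^ 4 * x 0 * x 1 * x 2 * x 3 ^ 2 + q ^ 5 * x 0 ^ 2 * x 1 * x 3 ^ 2 + q ^ 5 * x 0 ^ 2 * x 1 * x 2 * x 3
  | 2, 3 => q ^ 6 * x 0 * x 1 ^ 2 * x 2 * x 3 + q ^ 6 * x 0 ^ 2 * x 1 * x 2 * x 3 + q ^ 6 * x 0 ^ 2 * x 1 ^ 2 * x 3
  | 3, 0 => q ^ 5 * x 0 * x 1 * x 2 ^ 2 * x 3 + q ^ 5 * x 0 * x 1 ^ 2 * x 2 * x 3 + q ^ 5 * x 0 * x 1 ^ 2 * x 2 ^ 2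
  | 3, 1 => q ^ 5 * x 0 * x 1 * x 2 ^ 2 * x 3 + q ^ 6 * x 0 ^ 2 * x 1 * x 2 * x 3 + q ^ 6 * x 0 ^ 2 * x 1 * x 2 ^ 2
  | 3, 2 => q ^ 6 * x 0 * x 1 ^ 2 * x 2 * x 3 + q ^ 6 * x 0 ^ 2 * x 1 * x 2 * x 3 + q ^ 7 * x 0 ^ 2 * x 1 ^ 2 * x 2
  | _, _ => 0

lemma Om_ev_0_1 (q : A) (x : Fin 4 → A) (G : Fin 4 → Fin 4 → A) :
    Om q x G 0 1 = x 2 * G 2 0 + x 3 * G 3 0 := by
  rw [Om, Fin.sum_univ_four]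
  simp only [ew4_0_0, ew4_0_1, ew4_1_0, ew4_1_1, ew4_2_0, ew4_2_1, ew4_3_0, ew4_3_1]
  ring

lemma Om_ev_0_2 (q : A) (x : Fin 4 → A) (G : Fin 4 → Fin 4 → A) :
    Om q x G 0 2 = q * x 1 * G 1 0 + x 3 * G 3 0 := by
  rw [Om, Fin.sum_univ_four]
  simp only [ew4_0_0, ew4_0_2, ew4_1_0, ew4_1_2, ew4_2_0, ew4_2_2, ew4_3_0, ew4_3_2]
  ring

lemma Om_ev_0_3 (q : A) (x : Fin 4 → A) (G : Fin 4 → Fin 4 → A) :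
    Om q x G 0 3 = q * x 1 * G 1 0 + q * x 2 * G 2 0 := by
  rw [Om, Fin.sum_univ_four]
  simp only [ew4_0_0, ew4_0_3, ew4_1_0, ew4_1_3, ew4_2_0, ew4_2_3, ew4_3_0, ew4_3_3]
  ring

lemma Om_ev_1_0 (q : A) (x : Fin 4 → A) (G : Fin 4 → Fin 4 → A) :
    Om q x G 1 0 = x 2 * G 2 1 + x 3 * G 3 1 := by
  rw [Om, Fin.sum_univ_four]
  simp only [ew4_0_0, ew4_0_1, ew4_1_0, ew4_1_1, ew4_2_0, ew4_2_1, ew4_3_0, ew4_3_1]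
  ring

lemma Om_ev_1_2 (q : A) (x : Fin 4 → A) (G : Fin 4 → Fin 4 → A) :
    Om q x G 1 2 = q ^ 2 * x 0 * G 0 1 + x 3 * G 3 1 := by
  rw [Om, Fin.sum_univ_four]
  simp only [ew4_0_1, ew4_0_2, ew4_1_1, ew4_1_2, ew4_2_1, ew4_2_2, ew4_3_1, ew4_3_2]
  ring

lemma Om_ev_1_3 (q : A) (x : Fin 4 → A) (G : Fin 4 → Fin 4 → A) :
    Om q x G 1 3 = q ^ 2 * x 0 * G 0 1 + q * x 2 * G 2 1 := by
  rw [Om, Fin.sum_univ_four]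
  simp only [ew4_0_1, ew4_0_3, ew4_1_1, ew4_1_3, ew4_2_1, ew4_2_3, ew4_3_1, ew4_3_3]
  ring

lemma Om_ev_2_0 (q : A) (x : Fin 4 → A) (G : Fin 4 → Fin 4 → A) :
    Om q x G 2 0 = q * x 1 * G 1 2 + x 3 * G 3 2 := by
  rw [Om, Fin.sum_univ_four]
  simp only [ew4_0_0, ew4_0_2, ew4_1_0, ew4_1_2, ew4_2_0, ew4_2_2, ew4_3_0, ew4_3_2]
  ring

lemma Om_ev_2_1 (q : A) (x : Fin 4 → A) (G : Fin 4 → Fin 4 → A) :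
    Om q x G 2 1 = q ^ 2 * x 0 * G 0 2 + x 3 * G 3 2 := by
  rw [Om, Fin.sum_univ_four]
  simp only [ew4_0_1, ew4_0_2, ew4_1_1, ew4_1_2, ew4_2_1, ew4_2_2, ew4_3_1, ew4_3_2]
  ring

lemma Om_ev_2_3 (q : A) (x : Fin 4 → A) (G : Fin 4 → Fin 4 → A) :
    Om q x G 2 3 = q ^ 2 * x 0 * G 0 2 + q ^ 2 * x 1 * G 1 2 := by
  rw [Om, Fin.sum_univ_four]
  simp only [ew4_0_2, ew4_0_3, ew4_1_2, ew4_1_3, ew4_2_2, ew4_2_3, ew4_3_2, ew4_3_3]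
  ring

lemma Om_ev_3_0 (q : A) (x : Fin 4 → A) (G : Fin 4 → Fin 4 → A) :
    Om q x G 3 0 = q * x 1 * G 1 3 + q * x 2 * G 2 3 := by
  rw [Om, Fin.sum_univ_four]
  simp only [ew4_0_0, ew4_0_3, ew4_1_0, ew4_1_3, ew4_2_0, ew4_2_3, ew4_3_0, ew4_3_3]
  ring

lemma Om_ev_3_1 (q : A) (x : Fin 4 → A) (G : Fin 4 → Fin 4 → A) :
    Om q x G 3 1 = q ^ 2 * x 0 * G 0 3 + q * x 2 * G 2 3 := by
  rw [Om, Fin.sum_univ_four]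
  simp only [ew4_0_1, ew4_0_3, ew4_1_1, ew4_1_3, ew4_2_1, ew4_2_3, ew4_3_1, ew4_3_3]
  ring

lemma Om_ev_3_2 (q : A) (x : Fin 4 → A) (G : Fin 4 → Fin 4 → A) :
    Om q x G 3 2 = q ^ 2 * x 0 * G 0 3 + q ^ 2 * x 1 * G 1 3 := by
  rw [Om, Fin.sum_univ_four]
  simp only [ew4_0_2, ew4_0_3, ew4_1_2, ew4_1_3, ew4_2_2, ew4_2_3, ew4_3_2, ew4_3_3]
  ring

lemma cl2_ev_0 (q : A) (x : Fin 4 → A) (G : Fin 4 → Fin 4 → A) :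
    cl2 q x G 0 = x 1 * G 1 0 + x 2 * G 2 0 + x 3 * G 3 0 := by
  rw [cl2, Fin.sum_univ_four]
  simp only [ew4_0_0, ew4_1_0, ew4_2_0, ew4_3_0]
  ring

lemma cl2_ev_1 (q : A) (x : Fin 4 → A) (G : Fin 4 → Fin 4 → A) :
    cl2 q x G 1 = q * x 0 * G 0 1 + x 2 * G 2 1 + x 3 * G 3 1 := by
  rw [cl2, Fin.sum_univ_four]
  simp only [ew4_0_1, ew4_1_1, ew4_2_1, ew4_3_1]
  ring

lemma cl2_ev_2 (q : A) (x : Fin 4 → A) (G : Fin 4 → Fin 4 → A) :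
    cl2 q x G 2 = q * x 0 * G 0 2 + q * x 1 * G 1 2 + x 3 * G 3 2 := by
  rw [cl2, Fin.sum_univ_four]
  simp only [ew4_0_2, ew4_1_2, ew4_2_2, ew4_3_2]
  ring

lemma cl2_ev_3 (q : A) (x : Fin 4 → A) (G : Fin 4 → Fin 4 → A) :
    cl2 q x G 3 = q * x 0 * G 0 3 + q * x 1 * G 1 3 + q * x 2 * G 2 3 := by
  rw [cl2, Fin.sum_univ_four]
  simp only [ew4_0_3, ew4_1_3, ew4_2_3, ew4_3_3]
  ring

lemma Drop_ev_0_1 (q : A) (x : Fin 4 → A) (G : Fin 4 → Fin 4 → Fin 4 → A) :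
    Drop q x G 0 1 = x 2 * G 2 0 1 + x 3 * G 3 0 1 := by
  rw [Drop, Fin.sum_univ_four]
  simp only [ew4_0_0, ew4_0_1, ew4_1_0, ew4_1_1, ew4_2_0, ew4_2_1, ew4_3_0, ew4_3_1]
  ring

lemma Drop_ev_0_2 (q : A) (x : Fin 4 → A) (G : Fin 4 → Fin 4 → Fin 4 → A) :
    Drop q x G 0 2 = q * x 1 * G 1 0 2 + x 3 * G 3 0 2 := by
  rw [Drop, Fin.sum_univ_four]
  simp only [ew4_0_0, ew4_0_2, ew4_1_0, ew4_1_2, ew4_2_0, ew4_2_2, ew4_3_0, ew4_3_2]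
  ring

lemma Drop_ev_0_3 (q : A) (x : Fin 4 → A) (G : Fin 4 → Fin 4 → Fin 4 → A) :
    Drop q x G 0 3 = q * x 1 * G 1 0 3 + q * x 2 * G 2 0 3 := by
  rw [Drop, Fin.sum_univ_four]
  simp only [ew4_0_0, ew4_0_3, ew4_1_0, ew4_1_3, ew4_2_0, ew4_2_3, ew4_3_0, ew4_3_3]
  ring

lemma Drop_ev_1_0 (q : A) (x : Fin 4 → A) (G : Fin 4 → Fin 4 → Fin 4 → A) :
    Drop q x G 1 0 = x 2 * G 2 1 0 + x 3 * G 3 1 0 := by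
  rw [Drop, Fin.sum_univ_four]
  simp only [ew4_0_0, ew4_0_1, ew4_1_0, ew4_1_1, ew4_2_0, ew4_2_1, ew4_3_0, ew4_3_1]
  ring

lemma Drop_ev_1_2 (q : A) (x : Fin 4 → A) (G : Fin 4 → Fin 4 → Fin 4 → A) :
    Drop q x G 1 2 = q ^ 2 * x 0 * G 0 1 2 + x 3 * G 3 1 2 := by
  rw [Drop, Fin.sum_univ_four]
  simp only [ew4_0_1, ew4_0_2, ew4_1_1, ew4_1_2, ew4_2_1, ew4_2_2, ew4_3_1, ew4_3_2]
  ring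

lemma Drop_ev_1_3 (q : A) (x : Fin 4 → A) (G : Fin 4 → Fin 4 → Fin 4 → A) :
    Drop q x G 1 3 = q ^ 2 * x 0 * G 0 1 3 + q * x 2 * G 2 1 3 := by
  rw [Drop, Fin.sum_univ_four]
  simp only [ew4_0_1, ew4_0_3, ew4_1_1, ew4_1_3, ew4_2_1, ew4_2_3, ew4_3_1, ew4_3_3]
  ring

lemma Drop_ev_2_0 (q : A) (x : Fin 4 → A) (G : Fin 4 → Fin 4 → Fin 4 → A) :
    Drop q x G 2 0 = q * x 1 * G 1 2 0 + x 3 * G 3 2 0 := by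
  rw [Drop, Fin.sum_univ_four]
  simp only [ew4_0_0, ew4_0_2, ew4_1_0, ew4_1_2, ew4_2_0, ew4_2_2, ew4_3_0, ew4_3_2]
  ring

lemma Drop_ev_2_1 (q : A) (x : Fin 4 → A) (G : Fin 4 → Fin 4 → Fin 4 → A) :
    Drop q x G 2 1 = q ^ 2 * x 0 * G 0 2 1 + x 3 * G 3 2 1 := by
  rw [Drop, Fin.sum_univ_four]
  simp only [ew4_0_1, ew4_0_2, ew4_1_1, ew4_1_2, ew4_2_1, ew4_2_2, ew4_3_1, ew4_3_2]
  ring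

lemma Drop_ev_2_3 (q : A) (x : Fin 4 → A) (G : Fin 4 → Fin 4 → Fin 4 → A) :
    Drop q x G 2 3 = q ^ 2 * x 0 * G 0 2 3 + q ^ 2 * x 1 * G 1 2 3 := by
  rw [Drop, Fin.sum_univ_four]
  simp only [ew4_0_2, ew4_0_3, ew4_1_2, ew4_1_3, ew4_2_2, ew4_2_3, ew4_3_2, ew4_3_3]
  ring

lemma Drop_ev_3_0 (q : A) (x : Fin 4 → A) (G : Fin 4 → Fin 4 → Fin 4 → A) :
    Drop q x G 3 0 = q * x 1 * G 1 3 0 + q * x 2 * G 2 3 0 := by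
  rw [Drop, Fin.sum_univ_four]
  simp only [ew4_0_0, ew4_0_3, ew4_1_0, ew4_1_3, ew4_2_0, ew4_2_3, ew4_3_0, ew4_3_3]
  ring

lemma Drop_ev_3_1 (q : A) (x : Fin 4 → A) (G : Fin 4 → Fin 4 → Fin 4 → A) :
    Drop q x G 3 1 = q ^ 2 * x 0 * G 0 3 1 + q * x 2 * G 2 3 1 := by
  rw [Drop, Fin.sum_univ_four]
  simp only [ew4_0_1, ew4_0_3, ew4_1_1, ew4_1_3, ew4_2_1, ew4_2_3, ew4_3_1, ew4_3_3]
  ring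

lemma Drop_ev_3_2 (q : A) (x : Fin 4 → A) (G : Fin 4 → Fin 4 → Fin 4 → A) :
    Drop q x G 3 2 = q ^ 2 * x 0 * G 0 3 2 + q ^ 2 * x 1 * G 1 3 2 := by
  rw [Drop, Fin.sum_univ_four]
  simp only [ew4_0_2, ew4_0_3, ew4_1_2, ew4_1_3, ew4_2_2, ew4_2_3, ew4_3_2, ew4_3_3]
  ring

lemma Rot_ev_0_1_2 (q : A) (x : Fin 4 → A) (G : Fin 4 → Fin 4 → Fin 4 → A) :
    Rot q x G 0 1 2 = x 3 * G 3 0 1 := by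
  rw [Rot, Fin.sum_univ_four]
  simp only [ew4_0_0, ew4_0_1, ew4_0_2, ew4_1_0, ew4_1_1, ew4_1_2, ew4_2_0, ew4_2_1, ew4_2_2, ew4_3_0, ew4_3_1, ew4_3_2]
  ring

lemma Lift_ev_0_1_2 (q : A) (x : Fin 4 → A) (G : Fin 4 → Fin 4 → A) :
    Lift q x G 0 1 2 = x 3 * G 3 0 := by
  rw [Lift, Fin.sum_univ_four]
  simp only [ew4_0_0, ew4_0_1, ew4_0_2, ew4_1_0, ew4_1_1, ew4_1_2, ew4_2_0, ew4_2_1, ew4_2_2, ew4_3_0, ew4_3_1, ew4_3_2]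
  ring

lemma Rot_ev_0_1_3 (q : A) (x : Fin 4 → A) (G : Fin 4 → Fin 4 → Fin 4 → A) :
    Rot q x G 0 1 3 = q * x 2 * G 2 0 1 := by
  rw [Rot, Fin.sum_univ_four]
  simp only [ew4_0_0, ew4_0_1, ew4_0_3, ew4_1_0, ew4_1_1, ew4_1_3, ew4_2_0, ew4_2_1, ew4_2_3, ew4_3_0, ew4_3_1, ew4_3_3]
  ring

lemma Lift_ev_0_1_3 (q : A) (x : Fin 4 → A) (G : Fin 4 → Fin 4 → A) :
    Lift q x G 0 1 3 = q * x 2 * G 2 0 := by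
  rw [Lift, Fin.sum_univ_four]
  simp only [ew4_0_0, ew4_0_1, ew4_0_3, ew4_1_0, ew4_1_1, ew4_1_3, ew4_2_0, ew4_2_1, ew4_2_3, ew4_3_0, ew4_3_1, ew4_3_3]
  ring

lemma Rot_ev_0_2_1 (q : A) (x : Fin 4 → A) (G : Fin 4 → Fin 4 → Fin 4 → A) :
    Rot q x G 0 2 1 = x 3 * G 3 0 2 := by
  rw [Rot, Fin.sum_univ_four]
  simp only [ew4_0_0, ew4_0_1, ew4_0_2, ew4_1_0, ew4_1_1, ew4_1_2, ew4_2_0, ew4_2_1, ew4_2_2, ew4_3_0, ew4_3_1, ew4_3_2]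
  ring

lemma Lift_ev_0_2_1 (q : A) (x : Fin 4 → A) (G : Fin 4 → Fin 4 → A) :
    Lift q x G 0 2 1 = x 3 * G 3 0 := by
  rw [Lift, Fin.sum_univ_four]
  simp only [ew4_0_0, ew4_0_1, ew4_0_2, ew4_1_0, ew4_1_1, ew4_1_2, ew4_2_0, ew4_2_1, ew4_2_2, ew4_3_0, ew4_3_1, ew4_3_2]
  ring

lemma Rot_ev_0_2_3 (q : A) (x : Fin 4 → A) (G : Fin 4 → Fin 4 → Fin 4 → A) :
    Rot q x G 0 2 3 = q ^ 2 * x 1 * G 1 0 2 := by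
  rw [Rot, Fin.sum_univ_four]
  simp only [ew4_0_0, ew4_0_2, ew4_0_3, ew4_1_0, ew4_1_2, ew4_1_3, ew4_2_0, ew4_2_2, ew4_2_3, ew4_3_0, ew4_3_2, ew4_3_3]
  ring

lemma Lift_ev_0_2_3 (q : A) (x : Fin 4 → A) (G : Fin 4 → Fin 4 → A) :
    Lift q x G 0 2 3 = q ^ 2 * x 1 * G 1 0 := by
  rw [Lift, Fin.sum_univ_four]
  simp only [ew4_0_0, ew4_0_2, ew4_0_3, ew4_1_0, ew4_1_2, ew4_1_3, ew4_2_0, ew4_2_2, ew4_2_3, ew4_3_0, ew4_3_2, ew4_3_3]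
  ring

lemma Rot_ev_0_3_1 (q : A) (x : Fin 4 → A) (G : Fin 4 → Fin 4 → Fin 4 → A) :
    Rot q x G 0 3 1 = q * x 2 * G 2 0 3 := by
  rw [Rot, Fin.sum_univ_four]
  simp only [ew4_0_0, ew4_0_1, ew4_0_3, ew4_1_0, ew4_1_1, ew4_1_3, ew4_2_0, ew4_2_1, ew4_2_3, ew4_3_0, ew4_3_1, ew4_3_3]
  ring

lemma Lift_ev_0_3_1 (q : A) (x : Fin 4 → A) (G : Fin 4 → Fin 4 → A) :
    Lift q x G 0 3 1 = q * x 2 * G 2 0 := by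
  rw [Lift, Fin.sum_univ_four]
  simp only [ew4_0_0, ew4_0_1, ew4_0_3, ew4_1_0, ew4_1_1, ew4_1_3, ew4_2_0, ew4_2_1, ew4_2_3, ew4_3_0, ew4_3_1, ew4_3_3]
  ring

lemma Rot_ev_0_3_2 (q : A) (x : Fin 4 → A) (G : Fin 4 → Fin 4 → Fin 4 → A) :
    Rot q x G 0 3 2 = q ^ 2 * x 1 * G 1 0 3 := by
  rw [Rot, Fin.sum_univ_four]
  simp only [ew4_0_0, ew4_0_2, ew4_0_3, ew4_1_0, ew4_1_2, ew4_1_3, ew4_2_0, ew4_2_2, ew4_2_3, ew4_3_0, ew4_3_2, ew4_3_3]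
  ring

lemma Lift_ev_0_3_2 (q : A) (x : Fin 4 → A) (G : Fin 4 → Fin 4 → A) :
    Lift q x G 0 3 2 = q ^ 2 * x 1 * G 1 0 := by
  rw [Lift, Fin.sum_univ_four]
  simp only [ew4_0_0, ew4_0_2, ew4_0_3, ew4_1_0, ew4_1_2, ew4_1_3, ew4_2_0, ew4_2_2, ew4_2_3, ew4_3_0, ew4_3_2, ew4_3_3]
  ring

lemma Rot_ev_1_0_2 (q : A) (x : Fin 4 → A) (G : Fin 4 → Fin 4 → Fin 4 → A) :
    Rot q x G 1 0 2 = x 3 * G 3 1 0 := by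
  rw [Rot, Fin.sum_univ_four]
  simp only [ew4_0_0, ew4_0_1, ew4_0_2, ew4_1_0, ew4_1_1, ew4_1_2, ew4_2_0, ew4_2_1, ew4_2_2, ew4_3_0, ew4_3_1, ew4_3_2]
  ring

lemma Lift_ev_1_0_2 (q : A) (x : Fin 4 → A) (G : Fin 4 → Fin 4 → A) :
    Lift q x G 1 0 2 = x 3 * G 3 1 := by
  rw [Lift, Fin.sum_univ_four]
  simp only [ew4_0_0, ew4_0_1, ew4_0_2, ew4_1_0, ew4_1_1, ew4_1_2, ew4_2_0, ew4_2_1, ew4_2_2, ew4_3_0, ew4_3_1, ew4_3_2]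
  ring

lemma Rot_ev_1_0_3 (q : A) (x : Fin 4 → A) (G : Fin 4 → Fin 4 → Fin 4 → A) :
    Rot q x G 1 0 3 = q * x 2 * G 2 1 0 := by
  rw [Rot, Fin.sum_univ_four]
  simp only [ew4_0_0, ew4_0_1, ew4_0_3, ew4_1_0, ew4_1_1, ew4_1_3, ew4_2_0, ew4_2_1, ew4_2_3, ew4_3_0, ew4_3_1, ew4_3_3]
  ring

lemma Lift_ev_1_0_3 (q : A) (x : Fin 4 → A) (G : Fin 4 → Fin 4 → A) :
    Lift q x G 1 0 3 = q * x 2 * G 2 1 := by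
  rw [Lift, Fin.sum_univ_four]
  simp only [ew4_0_0, ew4_0_1, ew4_0_3, ew4_1_0, ew4_1_1, ew4_1_3, ew4_2_0, ew4_2_1, ew4_2_3, ew4_3_0, ew4_3_1, ew4_3_3]
  ring

lemma Rot_ev_1_2_0 (q : A) (x : Fin 4 → A) (G : Fin 4 → Fin 4 → Fin 4 → A) :
    Rot q x G 1 2 0 = x 3 * G 3 1 2 := by
  rw [Rot, Fin.sum_univ_four]
  simp only [ew4_0_0, ew4_0_1, ew4_0_2, ew4_1_0, ew4_1_1, ew4_1_2, ew4_2_0, ew4_2_1, ew4_2_2, ew4_3_0, ew4_3_1, ew4_3_2]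
  ring

lemma Lift_ev_1_2_0 (q : A) (x : Fin 4 → A) (G : Fin 4 → Fin 4 → A) :
    Lift q x G 1 2 0 = x 3 * G 3 1 := by
  rw [Lift, Fin.sum_univ_four]
  simp only [ew4_0_0, ew4_0_1, ew4_0_2, ew4_1_0, ew4_1_1, ew4_1_2, ew4_2_0, ew4_2_1, ew4_2_2, ew4_3_0, ew4_3_1, ew4_3_2]
  ring

lemma Rot_ev_1_2_3 (q : A) (x : Fin 4 → A) (G : Fin 4 → Fin 4 → Fin 4 → A) :
    Rot q x G 1 2 3 = q ^ 3 * x 0 * G 0 1 2 := by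
  rw [Rot, Fin.sum_univ_four]
  simp only [ew4_0_1, ew4_0_2, ew4_0_3, ew4_1_1, ew4_1_2, ew4_1_3, ew4_2_1, ew4_2_2, ew4_2_3, ew4_3_1, ew4_3_2, ew4_3_3]
  ring

lemma Lift_ev_1_2_3 (q : A) (x : Fin 4 → A) (G : Fin 4 → Fin 4 → A) :
    Lift q x G 1 2 3 = q ^ 3 * x 0 * G 0 1 := by
  rw [Lift, Fin.sum_univ_four]
  simp only [ew4_0_1, ew4_0_2, ew4_0_3, ew4_1_1, ew4_1_2, ew4_1_3, ew4_2_1, ew4_2_2, ew4_2_3, ew4_3_1, ew4_3_2, ew4_3_3]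
  ring

lemma Rot_ev_1_3_0 (q : A) (x : Fin 4 → A) (G : Fin 4 → Fin 4 → Fin 4 → A) :
    Rot q x G 1 3 0 = q * x 2 * G 2 1 3 := by
  rw [Rot, Fin.sum_univ_four]
  simp only [ew4_0_0, ew4_0_1, ew4_0_3, ew4_1_0, ew4_1_1, ew4_1_3, ew4_2_0, ew4_2_1, ew4_2_3, ew4_3_0, ew4_3_1, ew4_3_3]
  ring

lemma Lift_ev_1_3_0 (q : A) (x : Fin 4 → A) (G : Fin 4 → Fin 4 → A) :
    Lift q x G 1 3 0 = q * x 2 * G 2 1 := by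
  rw [Lift, Fin.sum_univ_four]
  simp only [ew4_0_0, ew4_0_1, ew4_0_3, ew4_1_0, ew4_1_1, ew4_1_3, ew4_2_0, ew4_2_1, ew4_2_3, ew4_3_0, ew4_3_1, ew4_3_3]
  ring

lemma Rot_ev_1_3_2 (q : A) (x : Fin 4 → A) (G : Fin 4 → Fin 4 → Fin 4 → A) :
    Rot q x G 1 3 2 = q ^ 3 * x 0 * G 0 1 3 := by
  rw [Rot, Fin.sum_univ_four]
  simp only [ew4_0_1, ew4_0_2, ew4_0_3, ew4_1_1, ew4_1_2, ew4_1_3, ew4_2_1, ew4_2_2, ew4_2_3, ew4_3_1, ew4_3_2, ew4_3_3]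
  ring

lemma Lift_ev_1_3_2 (q : A) (x : Fin 4 → A) (G : Fin 4 → Fin 4 → A) :
    Lift q x G 1 3 2 = q ^ 3 * x 0 * G 0 1 := by
  rw [Lift, Fin.sum_univ_four]
  simp only [ew4_0_1, ew4_0_2, ew4_0_3, ew4_1_1, ew4_1_2, ew4_1_3, ew4_2_1, ew4_2_2, ew4_2_3, ew4_3_1, ew4_3_2, ew4_3_3]
  ring

lemma Rot_ev_2_0_1 (q : A) (x : Fin 4 → A) (G : Fin 4 → Fin 4 → Fin 4 → A) :
    Rot q x G 2 0 1 = x 3 * G 3 2 0 := by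
  rw [Rot, Fin.sum_univ_four]
  simp only [ew4_0_0, ew4_0_1, ew4_0_2, ew4_1_0, ew4_1_1, ew4_1_2, ew4_2_0, ew4_2_1, ew4_2_2, ew4_3_0, ew4_3_1, ew4_3_2]
  ring

lemma Lift_ev_2_0_1 (q : A) (x : Fin 4 → A) (G : Fin 4 → Fin 4 → A) :
    Lift q x G 2 0 1 = x 3 * G 3 2 := by
  rw [Lift, Fin.sum_univ_four]
  simp only [ew4_0_0, ew4_0_1, ew4_0_2, ew4_1_0, ew4_1_1, ew4_1_2, ew4_2_0, ew4_2_1, ew4_2_2, ew4_3_0, ew4_3_1, ew4_3_2]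
  ring

lemma Rot_ev_2_0_3 (q : A) (x : Fin 4 → A) (G : Fin 4 → Fin 4 → Fin 4 → A) :
    Rot q x G 2 0 3 = q ^ 2 * x 1 * G 1 2 0 := by
  rw [Rot, Fin.sum_univ_four]
  simp only [ew4_0_0, ew4_0_2, ew4_0_3, ew4_1_0, ew4_1_2, ew4_1_3, ew4_2_0, ew4_2_2, ew4_2_3, ew4_3_0, ew4_3_2, ew4_3_3]
  ring

lemma Lift_ev_2_0_3 (q : A) (x : Fin 4 → A) (G : Fin 4 → Fin 4 → A) :
    Lift q x G 2 0 3 = q ^ 2 * x 1 * G 1 2 := by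
  rw [Lift, Fin.sum_univ_four]
  simp only [ew4_0_0, ew4_0_2, ew4_0_3, ew4_1_0, ew4_1_2, ew4_1_3, ew4_2_0, ew4_2_2, ew4_2_3, ew4_3_0, ew4_3_2, ew4_3_3]
  ring

lemma Rot_ev_2_1_0 (q : A) (x : Fin 4 → A) (G : Fin 4 → Fin 4 → Fin 4 → A) :
    Rot q x G 2 1 0 = x 3 * G 3 2 1 := by
  rw [Rot, Fin.sum_univ_four]
  simp only [ew4_0_0, ew4_0_1, ew4_0_2, ew4_1_0, ew4_1_1, ew4_1_2, ew4_2_0, ew4_2_1, ew4_2_2, ew4_3_0, ew4_3_1, ew4_3_2]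
  ring

lemma Lift_ev_2_1_0 (q : A) (x : Fin 4 → A) (G : Fin 4 → Fin 4 → A) :
    Lift q x G 2 1 0 = x 3 * G 3 2 := by
  rw [Lift, Fin.sum_univ_four]
  simp only [ew4_0_0, ew4_0_1, ew4_0_2, ew4_1_0, ew4_1_1, ew4_1_2, ew4_2_0, ew4_2_1, ew4_2_2, ew4_3_0, ew4_3_1, ew4_3_2]
  ring

lemma Rot_ev_2_1_3 (q : A) (x : Fin 4 → A) (G : Fin 4 → Fin 4 → Fin 4 → A) :
    Rot q x G 2 1 3 = q ^ 3 * x 0 * G 0 2 1 := by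
  rw [Rot, Fin.sum_univ_four]
  simp only [ew4_0_1, ew4_0_2, ew4_0_3, ew4_1_1, ew4_1_2, ew4_1_3, ew4_2_1, ew4_2_2, ew4_2_3, ew4_3_1, ew4_3_2, ew4_3_3]
  ring

lemma Lift_ev_2_1_3 (q : A) (x : Fin 4 → A) (G : Fin 4 → Fin 4 → A) :
    Lift q x G 2 1 3 = q ^ 3 * x 0 * G 0 2 := by
  rw [Lift, Fin.sum_univ_four]
  simp only [ew4_0_1, ew4_0_2, ew4_0_3, ew4_1_1, ew4_1_2, ew4_1_3, ew4_2_1, ew4_2_2, ew4_2_3, ew4_3_1, ew4_3_2, ew4_3_3]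
  ring

lemma Rot_ev_2_3_0 (q : A) (x : Fin 4 → A) (G : Fin 4 → Fin 4 → Fin 4 → A) :
    Rot q x G 2 3 0 = q ^ 2 * x 1 * G 1 2 3 := by
  rw [Rot, Fin.sum_univ_four]
  simp only [ew4_0_0, ew4_0_2, ew4_0_3, ew4_1_0, ew4_1_2, ew4_1_3, ew4_2_0, ew4_2_2, ew4_2_3, ew4_3_0, ew4_3_2, ew4_3_3]
  ring

lemma Lift_ev_2_3_0 (q : A) (x : Fin 4 → A) (G : Fin 4 → Fin 4 → A) :
    Lift q x G 2 3 0 = q ^ 2 * x 1 * G 1 2 := by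
  rw [Lift, Fin.sum_univ_four]
  simp only [ew4_0_0, ew4_0_2, ew4_0_3, ew4_1_0, ew4_1_2, ew4_1_3, ew4_2_0, ew4_2_2, ew4_2_3, ew4_3_0, ew4_3_2, ew4_3_3]
  ring

lemma Rot_ev_2_3_1 (q : A) (x : Fin 4 → A) (G : Fin 4 → Fin 4 → Fin 4 → A) :
    Rot q x G 2 3 1 = q ^ 3 * x 0 * G 0 2 3 := by
  rw [Rot, Fin.sum_univ_four]
  simp only [ew4_0_1, ew4_0_2, ew4_0_3, ew4_1_1, ew4_1_2, ew4_1_3, ew4_2_1, ew4_2_2, ew4_2_3, ew4_3_1, ew4_3_2, ew4_3_3]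
  ring

lemma Lift_ev_2_3_1 (q : A) (x : Fin 4 → A) (G : Fin 4 → Fin 4 → A) :
    Lift q x G 2 3 1 = q ^ 3 * x 0 * G 0 2 := by
  rw [Lift, Fin.sum_univ_four]
  simp only [ew4_0_1, ew4_0_2, ew4_0_3, ew4_1_1, ew4_1_2, ew4_1_3, ew4_2_1, ew4_2_2, ew4_2_3, ew4_3_1, ew4_3_2, ew4_3_3]
  ring

lemma Rot_ev_3_0_1 (q : A) (x : Fin 4 → A) (G : Fin 4 → Fin 4 → Fin 4 → A) :
    Rot q x G 3 0 1 = q * x 2 * G 2 3 0 := by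
  rw [Rot, Fin.sum_univ_four]
  simp only [ew4_0_0, ew4_0_1, ew4_0_3, ew4_1_0, ew4_1_1, ew4_1_3, ew4_2_0, ew4_2_1, ew4_2_3, ew4_3_0, ew4_3_1, ew4_3_3]
  ring

lemma Lift_ev_3_0_1 (q : A) (x : Fin 4 → A) (G : Fin 4 → Fin 4 → A) :
    Lift q x G 3 0 1 = q * x 2 * G 2 3 := by
  rw [Lift, Fin.sum_univ_four]
  simp only [ew4_0_0, ew4_0_1, ew4_0_3, ew4_1_0, ew4_1_1, ew4_1_3, ew4_2_0, ew4_2_1, ew4_2_3, ew4_3_0, ew4_3_1, ew4_3_3]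
  ring

lemma Rot_ev_3_0_2 (q : A) (x : Fin 4 → A) (G : Fin 4 → Fin 4 → Fin 4 → A) :
    Rot q x G 3 0 2 = q ^ 2 * x 1 * G 1 3 0 := by
  rw [Rot, Fin.sum_univ_four]
  simp only [ew4_0_0, ew4_0_2, ew4_0_3, ew4_1_0, ew4_1_2, ew4_1_3, ew4_2_0, ew4_2_2, ew4_2_3, ew4_3_0, ew4_3_2, ew4_3_3]
  ring

lemma Lift_ev_3_0_2 (q : A) (x : Fin 4 → A) (G : Fin 4 → Fin 4 → A) :
    Lift q x G 3 0 2 = q ^ 2 * x 1 * G 1 3 := by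
  rw [Lift, Fin.sum_univ_four]
  simp only [ew4_0_0, ew4_0_2, ew4_0_3, ew4_1_0, ew4_1_2, ew4_1_3, ew4_2_0, ew4_2_2, ew4_2_3, ew4_3_0, ew4_3_2, ew4_3_3]
  ring

lemma Rot_ev_3_1_0 (q : A) (x : Fin 4 → A) (G : Fin 4 → Fin 4 → Fin 4 → A) :
    Rot q x G 3 1 0 = q * x 2 * G 2 3 1 := by
  rw [Rot, Fin.sum_univ_four]
  simp only [ew4_0_0, ew4_0_1, ew4_0_3, ew4_1_0, ew4_1_1, ew4_1_3, ew4_2_0, ew4_2_1, ew4_2_3, ew4_3_0, ew4_3_1, ew4_3_3]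
  ring

lemma Lift_ev_3_1_0 (q : A) (x : Fin 4 → A) (G : Fin 4 → Fin 4 → A) :
    Lift q x G 3 1 0 = q * x 2 * G 2 3 := by
  rw [Lift, Fin.sum_univ_four]
  simp only [ew4_0_0, ew4_0_1, ew4_0_3, ew4_1_0, ew4_1_1, ew4_1_3, ew4_2_0, ew4_2_1, ew4_2_3, ew4_3_0, ew4_3_1, ew4_3_3]
  ring

lemma Rot_ev_3_1_2 (q : A) (x : Fin 4 → A) (G : Fin 4 → Fin 4 → Fin 4 → A) :
    Rot q x G 3 1 2 = q ^ 3 * x 0 * G 0 3 1 := by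
  rw [Rot, Fin.sum_univ_four]
  simp only [ew4_0_1, ew4_0_2, ew4_0_3, ew4_1_1, ew4_1_2, ew4_1_3, ew4_2_1, ew4_2_2, ew4_2_3, ew4_3_1, ew4_3_2, ew4_3_3]
  ring

lemma Lift_ev_3_1_2 (q : A) (x : Fin 4 → A) (G : Fin 4 → Fin 4 → A) :
    Lift q x G 3 1 2 = q ^ 3 * x 0 * G 0 3 := by
  rw [Lift, Fin.sum_univ_four]
  simp only [ew4_0_1, ew4_0_2, ew4_0_3, ew4_1_1, ew4_1_2, ew4_1_3, ew4_2_1, ew4_2_2, ew4_2_3, ew4_3_1, ew4_3_2, ew4_3_3]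
  ring

lemma Rot_ev_3_2_0 (q : A) (x : Fin 4 → A) (G : Fin 4 → Fin 4 → Fin 4 → A) :
    Rot q x G 3 2 0 = q ^ 2 * x 1 * G 1 3 2 := by
  rw [Rot, Fin.sum_univ_four]
  simp only [ew4_0_0, ew4_0_2, ew4_0_3, ew4_1_0, ew4_1_2, ew4_1_3, ew4_2_0, ew4_2_2, ew4_2_3, ew4_3_0, ew4_3_2, ew4_3_3]
  ring

lemma Lift_ev_3_2_0 (q : A) (x : Fin 4 → A) (G : Fin 4 → Fin 4 → A) :
    Lift q x G 3 2 0 = q ^ 2 * x 1 * G 1 3 := by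
  rw [Lift, Fin.sum_univ_four]
  simp only [ew4_0_0, ew4_0_2, ew4_0_3, ew4_1_0, ew4_1_2, ew4_1_3, ew4_2_0, ew4_2_2, ew4_2_3, ew4_3_0, ew4_3_2, ew4_3_3]
  ring

lemma Rot_ev_3_2_1 (q : A) (x : Fin 4 → A) (G : Fin 4 → Fin 4 → Fin 4 → A) :
    Rot q x G 3 2 1 = q ^ 3 * x 0 * G 0 3 2 := by
  rw [Rot, Fin.sum_univ_four]
  simp only [ew4_0_1, ew4_0_2, ew4_0_3, ew4_1_1, ew4_1_2, ew4_1_3, ew4_2_1, ew4_2_2, ew4_2_3, ew4_3_1, ew4_3_2, ew4_3_3]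
  ring

lemma Lift_ev_3_2_1 (q : A) (x : Fin 4 → A) (G : Fin 4 → Fin 4 → A) :
    Lift q x G 3 2 1 = q ^ 3 * x 0 * G 0 3 := by
  rw [Lift, Fin.sum_univ_four]
  simp only [ew4_0_1, ew4_0_2, ew4_0_3, ew4_1_1, ew4_1_2, ew4_1_3, ew4_2_1, ew4_2_2, ew4_2_3, ew4_3_1, ew4_3_2, ew4_3_3]
  ring

lemma C1_ev_0_1 (q : A) (x : Fin 4 → A) (G : Fin 4 → Fin 4 → A) :
    Drop q x (Lift q x G) 0 1
      = x 2 * x 3 * G 3 2 + q * x 2 * x 3 * G 2 3 := by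
  simp only [Drop_ev_0_1, Lift_ev_2_0_1, Lift_ev_3_0_1]
  ring

lemma C1_ev_0_2 (q : A) (x : Fin 4 → A) (G : Fin 4 → Fin 4 → A) :
    Drop q x (Lift q x G) 0 2
      = q * x 1 * x 3 * G 3 1 + q ^ 2 * x 1 * x 3 * G 1 3 := by
  simp only [Drop_ev_0_2, Lift_ev_1_0_2, Lift_ev_3_0_2]
  ring

lemma C1_ev_0_3 (q : A) (x : Fin 4 → A) (G : Fin 4 → Fin 4 → A) :
    Drop q x (Lift q x G) 0 3
      = q ^ 2 * x 1 * x 2 * G 2 1 + q ^ 3 * x 1 * x 2 * G 1 2 := by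
  simp only [Drop_ev_0_3, Lift_ev_1_0_3, Lift_ev_2_0_3]
  ring

lemma C1_ev_1_0 (q : A) (x : Fin 4 → A) (G : Fin 4 → Fin 4 → A) :
    Drop q x (Lift q x G) 1 0
      = x 2 * x 3 * G 3 2 + q * x 2 * x 3 * G 2 3 := by
  simp only [Drop_ev_1_0, Lift_ev_2_1_0, Lift_ev_3_1_0]
  ring

lemma C1_ev_1_2 (q : A) (x : Fin 4 → A) (G : Fin 4 → Fin 4 → A) :
    Drop q x (Lift q x G) 1 2
      = q ^ 2 * x 0 * x 3 * G 3 0 + q ^ 3 * x 0 * x 3 * G 0 3 := by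
  simp only [Drop_ev_1_2, Lift_ev_0_1_2, Lift_ev_3_1_2]
  ring

lemma C1_ev_1_3 (q : A) (x : Fin 4 → A) (G : Fin 4 → Fin 4 → A) :
    Drop q x (Lift q x G) 1 3
      = q ^ 3 * x 0 * x 2 * G 2 0 + q ^ 4 * x 0 * x 2 * G 0 2 := by
  simp only [Drop_ev_1_3, Lift_ev_0_1_3, Lift_ev_2_1_3]
  ring

lemma C1_ev_2_0 (q : A) (x : Fin 4 → A) (G : Fin 4 → Fin 4 → A) :
    Drop q x (Lift q x G) 2 0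
      = q * x 1 * x 3 * G 3 1 + q ^ 2 * x 1 * x 3 * G 1 3 := by
  simp only [Drop_ev_2_0, Lift_ev_1_2_0, Lift_ev_3_2_0]
  ring

lemma C1_ev_2_1 (q : A) (x : Fin 4 → A) (G : Fin 4 → Fin 4 → A) :
    Drop q x (Lift q x G) 2 1
      = q ^ 2 * x 0 * x 3 * G 3 0 + q ^ 3 * x 0 * x 3 * G 0 3 := by
  simp only [Drop_ev_2_1, Lift_ev_0_2_1, Lift_ev_3_2_1]
  ring

lemma C1_ev_2_3 (q : A) (x : Fin 4 → A) (G : Fin 4 → Fin 4 → A) :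
    Drop q x (Lift q x G) 2 3
      = q ^ 4 * x 0 * x 1 * G 1 0 + q ^ 5 * x 0 * x 1 * G 0 1 := by
  simp only [Drop_ev_2_3, Lift_ev_0_2_3, Lift_ev_1_2_3]
  ring

lemma C1_ev_3_0 (q : A) (x : Fin 4 → A) (G : Fin 4 → Fin 4 → A) :
    Drop q x (Lift q x G) 3 0
      = q ^ 2 * x 1 * x 2 * G 2 1 + q ^ 3 * x 1 * x 2 * G 1 2 := by
  simp only [Drop_ev_3_0, Lift_ev_1_3_0, Lift_ev_2_3_0]
  ring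

lemma C1_ev_3_1 (q : A) (x : Fin 4 → A) (G : Fin 4 → Fin 4 → A) :
    Drop q x (Lift q x G) 3 1
      = q ^ 3 * x 0 * x 2 * G 2 0 + q ^ 4 * x 0 * x 2 * G 0 2 := by
  simp only [Drop_ev_3_1, Lift_ev_0_3_1, Lift_ev_2_3_1]
  ring

lemma C1_ev_3_2 (q : A) (x : Fin 4 → A) (G : Fin 4 → Fin 4 → A) :
    Drop q x (Lift q x G) 3 2
      = q ^ 4 * x 0 * x 1 * G 1 0 + q ^ 5 * x 0 * x 1 * G 0 1 := by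
  simp only [Drop_ev_3_2, Lift_ev_0_3_2, Lift_ev_1_3_2]
  ring

lemma C2_ev_0_1 (q : A) (x : Fin 4 → A) (G : Fin 4 → Fin 4 → A) :
    Drop q x (Rot q x (Lift q x G)) 0 1
      = q ^ 2 * x 1 * x 2 * x 3 * G 1 3 + q ^ 3 * x 1 * x 2 * x 3 * G 1 2 := by
  simp only [Drop_ev_0_1, Lift_ev_2_3_0, Lift_ev_3_2_0, Rot_ev_2_0_1, Rot_ev_3_0_1]
  ring

lemma C2_ev_0_2 (q : A) (x : Fin 4 → A) (G : Fin 4 → Fin 4 → A) :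
    Drop q x (Rot q x (Lift q x G)) 0 2
      = q ^ 2 * x 1 * x 2 * x 3 * G 2 3 + q ^ 3 * x 1 * x 2 * x 3 * G 2 1 := by
  simp only [Drop_ev_0_2, Lift_ev_1_3_0, Lift_ev_3_1_0, Rot_ev_1_0_2, Rot_ev_3_0_2]
  ring

lemma C2_ev_0_3 (q : A) (x : Fin 4 → A) (G : Fin 4 → Fin 4 → A) :
    Drop q x (Rot q x (Lift q x G)) 0 3
      = q ^ 2 * x 1 * x 2 * x 3 * G 3 2 + q ^ 3 * x 1 * x 2 * x 3 * G 3 1 := by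
  simp only [Drop_ev_0_3, Lift_ev_1_2_0, Lift_ev_2_1_0, Rot_ev_1_0_3, Rot_ev_2_0_3]
  ring

lemma C2_ev_1_0 (q : A) (x : Fin 4 → A) (G : Fin 4 → Fin 4 → A) :
    Drop q x (Rot q x (Lift q x G)) 1 0
      = q ^ 3 * x 0 * x 2 * x 3 * G 0 3 + q ^ 4 * x 0 * x 2 * x 3 * G 0 2 := by
  simp only [Drop_ev_1_0, Lift_ev_2_3_1, Lift_ev_3_2_1, Rot_ev_2_1_0, Rot_ev_3_1_0]
  ring

lemma C2_ev_1_2 (q : A) (x : Fin 4 → A) (G : Fin 4 → Fin 4 → A) :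
    Drop q x (Rot q x (Lift q x G)) 1 2
      = q ^ 3 * x 0 * x 2 * x 3 * G 2 3 + q ^ 4 * x 0 * x 2 * x 3 * G 2 0 := by
  simp only [Drop_ev_1_2, Lift_ev_0_3_1, Lift_ev_3_0_1, Rot_ev_0_1_2, Rot_ev_3_1_2]
  ring

lemma C2_ev_1_3 (q : A) (x : Fin 4 → A) (G : Fin 4 → Fin 4 → A) :
    Drop q x (Rot q x (Lift q x G)) 1 3
      = q ^ 3 * x 0 * x 2 * x 3 * G 3 2 + q ^ 4 * x 0 * x 2 * x 3 * G 3 0 := by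
  simp only [Drop_ev_1_3, Lift_ev_0_2_1, Lift_ev_2_0_1, Rot_ev_0_1_3, Rot_ev_2_1_3]
  ring

lemma C2_ev_2_0 (q : A) (x : Fin 4 → A) (G : Fin 4 → Fin 4 → A) :
    Drop q x (Rot q x (Lift q x G)) 2 0
      = q ^ 4 * x 0 * x 1 * x 3 * G 0 3 + q ^ 5 * x 0 * x 1 * x 3 * G 0 1 := by
  simp only [Drop_ev_2_0, Lift_ev_1_3_2, Lift_ev_3_1_2, Rot_ev_1_2_0, Rot_ev_3_2_0]
  ring

lemma C2_ev_2_1 (q : A) (x : Fin 4 → A) (G : Fin 4 → Fin 4 → A) :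
    Drop q x (Rot q x (Lift q x G)) 2 1
      = q ^ 4 * x 0 * x 1 * x 3 * G 1 3 + q ^ 5 * x 0 * x 1 * x 3 * G 1 0 := by
  simp only [Drop_ev_2_1, Lift_ev_0_3_2, Lift_ev_3_0_2, Rot_ev_0_2_1, Rot_ev_3_2_1]
  ring

lemma C2_ev_2_3 (q : A) (x : Fin 4 → A) (G : Fin 4 → Fin 4 → A) :
    Drop q x (Rot q x (Lift q x G)) 2 3
      = q ^ 4 * x 0 * x 1 * x 3 * G 3 1 + q ^ 5 * x 0 * x 1 * x 3 * G 3 0 := by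
  simp only [Drop_ev_2_3, Lift_ev_0_1_2, Lift_ev_1_0_2, Rot_ev_0_2_3, Rot_ev_1_2_3]
  ring

lemma C2_ev_3_0 (q : A) (x : Fin 4 → A) (G : Fin 4 → Fin 4 → A) :
    Drop q x (Rot q x (Lift q x G)) 3 0
      = q ^ 5 * x 0 * x 1 * x 2 * G 0 2 + q ^ 6 * x 0 * x 1 * x 2 * G 0 1 := by
  simp only [Drop_ev_3_0, Lift_ev_1_2_3, Lift_ev_2_1_3, Rot_ev_1_3_0, Rot_ev_2_3_0]
  ring

lemma C2_ev_3_1 (q : A) (x : Fin 4 → A) (G : Fin 4 → Fin 4 → A) :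
    Drop q x (Rot q x (Lift q x G)) 3 1
      = q ^ 5 * x 0 * x 1 * x 2 * G 1 2 + q ^ 6 * x 0 * x 1 * x 2 * G 1 0 := by
  simp only [Drop_ev_3_1, Lift_ev_0_2_3, Lift_ev_2_0_3, Rot_ev_0_3_1, Rot_ev_2_3_1]
  ring

lemma C2_ev_3_2 (q : A) (x : Fin 4 → A) (G : Fin 4 → Fin 4 → A) :
    Drop q x (Rot q x (Lift q x G)) 3 2
      = q ^ 5 * x 0 * x 1 * x 2 * G 2 1 + q ^ 6 * x 0 * x 1 * x 2 * G 2 0 := by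
  simp only [Drop_ev_3_2, Lift_ev_0_1_3, Lift_ev_1_0_3, Rot_ev_0_3_2, Rot_ev_1_3_2]
  ring

lemma C4_ev_0_1 (q : A) (x : Fin 4 → A) (G : Fin 4 → Fin 4 → A) :
    Drop q x (Rot q x (Rot q x (Rot q x (Lift q x G)))) 0 1
      = q ^ 6 * x 0 * x 1 * x 2 ^ 2 * x 3 * G 2 0 + q ^ 6 * x 0 * x 1 * x 2 * x 3 ^ 2 * G 3 0 := by
  simp only [Drop_ev_0_1, Lift_ev_0_1_2, Lift_ev_0_1_3, Rot_ev_1_2_3, Rot_ev_1_3_2, Rot_ev_2_0_1, Rot_ev_2_3_0, Rot_ev_3_0_1, Rot_ev_3_2_0]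
  ring

lemma C4_ev_0_2 (q : A) (x : Fin 4 → A) (G : Fin 4 → Fin 4 → A) :
    Drop q x (Rot q x (Rot q x (Rot q x (Lift q x G)))) 0 2
      = q ^ 7 * x 0 * x 1 ^ 2 * x 2 * x 3 * G 1 0 + q ^ 6 * x 0 * x 1 * x 2 * x 3 ^ 2 * G 3 0 := by
  simp only [Drop_ev_0_2, Lift_ev_0_2_1, Lift_ev_0_2_3, Rot_ev_1_0_2, Rot_ev_1_3_0, Rot_ev_2_1_3, Rot_ev_2_3_1, Rot_ev_3_0_2, Rot_ev_3_1_0]
  ring

lemma C4_ev_0_3 (q : A) (x : Fin 4 → A) (G : Fin 4 → Fin 4 → A) :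
    Drop q x (Rot q x (Rot q x (Rot q x (Lift q x G)))) 0 3
      = q ^ 7 * x 0 * x 1 ^ 2 * x 2 * x 3 * G 1 0 + q ^ 7 * x 0 * x 1 * x 2 ^ 2 * x 3 * G 2 0 := by
  simp only [Drop_ev_0_3, Lift_ev_0_3_1, Lift_ev_0_3_2, Rot_ev_1_0_3, Rot_ev_1_2_0, Rot_ev_2_0_3, Rot_ev_2_1_0, Rot_ev_3_1_2, Rot_ev_3_2_1]
  ring

lemma C4_ev_1_0 (q : A) (x : Fin 4 → A) (G : Fin 4 → Fin 4 → A) :
    Drop q x (Rot q x (Rot q x (Rot q x (Lift q x G)))) 1 0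
      = q ^ 6 * x 0 * x 1 * x 2 ^ 2 * x 3 * G 2 1 + q ^ 6 * x 0 * x 1 * x 2 * x 3 ^ 2 * G 3 1 := by
  simp only [Drop_ev_1_0, Lift_ev_1_0_2, Lift_ev_1_0_3, Rot_ev_0_2_3, Rot_ev_0_3_2, Rot_ev_2_1_0, Rot_ev_2_3_1, Rot_ev_3_1_0, Rot_ev_3_2_1]
  ring

lemma C4_ev_1_2 (q : A) (x : Fin 4 → A) (G : Fin 4 → Fin 4 → A) :
    Drop q x (Rot q x (Rot q x (Rot q x (Lift q x G)))) 1 2
      = q ^ 8 * x 0 ^ 2 * x 1 * x 2 * x 3 * G 0 1 + q ^ 6 * x 0 * x 1 * x 2 * x 3 ^ 2 * G 3 1 := by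
  simp only [Drop_ev_1_2, Lift_ev_1_2_0, Lift_ev_1_2_3, Rot_ev_0_1_2, Rot_ev_0_3_1, Rot_ev_2_0_3, Rot_ev_2_3_0, Rot_ev_3_0_1, Rot_ev_3_1_2]
  ring

lemma C4_ev_1_3 (q : A) (x : Fin 4 → A) (G : Fin 4 → Fin 4 → A) :
    Drop q x (Rot q x (Rot q x (Rot q x (Lift q x G)))) 1 3
      = q ^ 8 * x 0 ^ 2 * x 1 * x 2 * x 3 * G 0 1 + q ^ 7 * x 0 * x 1 * x 2 ^ 2 * x 3 * G 2 1 := by
  simp only [Drop_ev_1_3, Lift_ev_1_3_0, Lift_ev_1_3_2, Rot_ev_0_1_3, Rot_ev_0_2_1, Rot_ev_2_0_1, Rot_ev_2_1_3, Rot_ev_3_0_2, Rot_ev_3_2_0]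
  ring

lemma C4_ev_2_0 (q : A) (x : Fin 4 → A) (G : Fin 4 → Fin 4 → A) :
    Drop q x (Rot q x (Rot q x (Rot q x (Lift q x G)))) 2 0
      = q ^ 7 * x 0 * x 1 ^ 2 * x 2 * x 3 * G 1 2 + q ^ 6 * x 0 * x 1 * x 2 * x 3 ^ 2 * G 3 2 := by
  simp only [Drop_ev_2_0, Lift_ev_2_0_1, Lift_ev_2_0_3, Rot_ev_0_1_3, Rot_ev_0_3_1, Rot_ev_1_2_0, Rot_ev_1_3_2, Rot_ev_3_1_2, Rot_ev_3_2_0]
  ring

lemma C4_ev_2_1 (q : A) (x : Fin 4 → A) (G : Fin 4 → Fin 4 → A) :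
    Drop q x (Rot q x (Rot q x (Rot q x (Lift q x G)))) 2 1
      = q ^ 8 * x 0 ^ 2 * x 1 * x 2 * x 3 * G 0 2 + q ^ 6 * x 0 * x 1 * x 2 * x 3 ^ 2 * G 3 2 := by
  simp only [Drop_ev_2_1, Lift_ev_2_1_0, Lift_ev_2_1_3, Rot_ev_0_2_1, Rot_ev_0_3_2, Rot_ev_1_0_3, Rot_ev_1_3_0, Rot_ev_3_0_2, Rot_ev_3_2_1]
  ring

lemma C4_ev_2_3 (q : A) (x : Fin 4 → A) (G : Fin 4 → Fin 4 → A) :
    Drop q x (Rot q x (Rot q x (Rot q x (Lift q x G)))) 2 3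
      = q ^ 8 * x 0 ^ 2 * x 1 * x 2 * x 3 * G 0 2 + q ^ 8 * x 0 * x 1 ^ 2 * x 2 * x 3 * G 1 2 := by
  simp only [Drop_ev_2_3, Lift_ev_2_3_0, Lift_ev_2_3_1, Rot_ev_0_1_2, Rot_ev_0_2_3, Rot_ev_1_0_2, Rot_ev_1_2_3, Rot_ev_3_0_1, Rot_ev_3_1_0]
  ring

lemma C4_ev_3_0 (q : A) (x : Fin 4 → A) (G : Fin 4 → Fin 4 → A) :
    Drop q x (Rot q x (Rot q x (Rot q x (Lift q x G)))) 3 0
      = q ^ 7 * x 0 * x 1 ^ 2 * x 2 * x 3 * G 1 3 + q ^ 7 * x 0 * x 1 * x 2 ^ 2 * x 3 * G 2 3 := by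
  simp only [Drop_ev_3_0, Lift_ev_3_0_1, Lift_ev_3_0_2, Rot_ev_0_1_2, Rot_ev_0_2_1, Rot_ev_1_2_3, Rot_ev_1_3_0, Rot_ev_2_1_3, Rot_ev_2_3_0]
  ring

lemma C4_ev_3_1 (q : A) (x : Fin 4 → A) (G : Fin 4 → Fin 4 → A) :
    Drop q x (Rot q x (Rot q x (Rot q x (Lift q x G)))) 3 1
      = q ^ 8 * x 0 ^ 2 * x 1 * x 2 * x 3 * G 0 3 + q ^ 7 * x 0 * x 1 * x 2 ^ 2 * x 3 * G 2 3 := by
  simp only [Drop_ev_3_1, Lift_ev_3_1_0, Lift_ev_3_1_2, Rot_ev_0_2_3, Rot_ev_0_3_1, Rot_ev_1_0_2, Rot_ev_1_2_0, Rot_ev_2_0_3, Rot_ev_2_3_1]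
  ring

lemma C4_ev_3_2 (q : A) (x : Fin 4 → A) (G : Fin 4 → Fin 4 → A) :
    Drop q x (Rot q x (Rot q x (Rot q x (Lift q x G)))) 3 2
      = q ^ 8 * x 0 ^ 2 * x 1 * x 2 * x 3 * G 0 3 + q ^ 8 * x 0 * x 1 ^ 2 * x 2 * x 3 * G 1 3 := by
  simp only [Drop_ev_3_2, Lift_ev_3_2_0, Lift_ev_3_2_1, Rot_ev_0_1_3, Rot_ev_0_3_2, Rot_ev_1_0_3, Rot_ev_1_3_2, Rot_ev_2_0_1, Rot_ev_2_1_0]
  ring

/-- a strip of four consecutive vertices, each adjacent to the next three, acts as a scalar -/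
lemma rel_C3 (q : A) (x : Fin 4 → A) (G : Fin 4 → Fin 4 → A) :
    ∀ u v : Fin 4, u ≠ v → Drop q x (Rot q x (Rot q x (Lift q x G))) u v = (q ^ 5 + q ^ 6) * es x 4 * G u v :=
  offdiag4
    (by simp only [Drop_ev_0_1, Lift_ev_1_2_3, Lift_ev_1_3_2, Rot_ev_2_0_1, Rot_ev_2_3_0, Rot_ev_3_0_1, Rot_ev_3_2_0, es4_4]; ring)
    (by simp only [Drop_ev_0_2, Lift_ev_2_1_3, Lift_ev_2_3_1, Rot_ev_1_0_2, Rot_ev_1_3_0, Rot_ev_3_0_2, Rot_ev_3_1_0, es4_4]; ring)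
    (by simp only [Drop_ev_0_3, Lift_ev_3_1_2, Lift_ev_3_2_1, Rot_ev_1_0_3, Rot_ev_1_2_0, Rot_ev_2_0_3, Rot_ev_2_1_0, es4_4]; ring)
    (by simp only [Drop_ev_1_0, Lift_ev_0_2_3, Lift_ev_0_3_2, Rot_ev_2_1_0, Rot_ev_2_3_1, Rot_ev_3_1_0, Rot_ev_3_2_1, es4_4]; ring)
    (by simp only [Drop_ev_1_2, Lift_ev_2_0_3, Lift_ev_2_3_0, Rot_ev_0_1_2, Rot_ev_0_3_1, Rot_ev_3_0_1, Rot_ev_3_1_2, es4_4]; ring)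
    (by simp only [Drop_ev_1_3, Lift_ev_3_0_2, Lift_ev_3_2_0, Rot_ev_0_1_3, Rot_ev_0_2_1, Rot_ev_2_0_1, Rot_ev_2_1_3, es4_4]; ring)
    (by simp only [Drop_ev_2_0, Lift_ev_0_1_3, Lift_ev_0_3_1, Rot_ev_1_2_0, Rot_ev_1_3_2, Rot_ev_3_1_2, Rot_ev_3_2_0, es4_4]; ring)
    (by simp only [Drop_ev_2_1, Lift_ev_1_0_3, Lift_ev_1_3_0, Rot_ev_0_2_1, Rot_ev_0_3_2, Rot_ev_3_0_2, Rot_ev_3_2_1, es4_4]; ring)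
    (by simp only [Drop_ev_2_3, Lift_ev_3_0_1, Lift_ev_3_1_0, Rot_ev_0_1_2, Rot_ev_0_2_3, Rot_ev_1_0_2, Rot_ev_1_2_3, es4_4]; ring)
    (by simp only [Drop_ev_3_0, Lift_ev_0_1_2, Lift_ev_0_2_1, Rot_ev_1_2_3, Rot_ev_1_3_0, Rot_ev_2_1_3, Rot_ev_2_3_0, es4_4]; ring)
    (by simp only [Drop_ev_3_1, Lift_ev_1_0_2, Lift_ev_1_2_0, Rot_ev_0_2_3, Rot_ev_0_3_1, Rot_ev_2_0_3, Rot_ev_2_3_1, es4_4]; ring)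
    (by simp only [Drop_ev_3_2, Lift_ev_2_0_1, Lift_ev_2_1_0, Rot_ev_0_1_3, Rot_ev_0_3_2, Rot_ev_1_0_3, Rot_ev_1_3_2, es4_4]; ring)

/-- four rotations act as a scalar -/
lemma rot4 (q : A) (x : Fin 4 → A) (G : Fin 4 → Fin 4 → Fin 4 → A) :
    ∀ b c d : Fin 4, b ≠ c → b ≠ d → c ≠ d →
      Rot q x (Rot q x (Rot q x (Rot q x G))) b c d = q ^ 6 * es x 4 * G b c d := by
  intro b c d hbc hbd hcd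
  fin_cases b <;> fin_cases c <;> fin_cases d
  · exact absurd rfl hbc
  · exact absurd rfl hbc
  · exact absurd rfl hbc
  · exact absurd rfl hbc
  · exact absurd rfl hbd
  · exact absurd rfl hcd
  · show Rot q x (Rot q x (Rot q x (Rot q x G))) 0 1 2 = q ^ 6 * es x 4 * G 0 1 2
    simp only [Rot_ev_0_1_2, Rot_ev_1_2_3, Rot_ev_2_3_0, Rot_ev_3_0_1, es4_4]
    ring
  · show Rot q x (Rot q x (Rot q x (Rot q x G))) 0 1 3 = q ^ 6 * es x 4 * G 0 1 3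
    simp only [Rot_ev_0_1_3, Rot_ev_1_3_2, Rot_ev_2_0_1, Rot_ev_3_2_0, es4_4]
    ring
  · exact absurd rfl hbd
  · show Rot q x (Rot q x (Rot q x (Rot q x G))) 0 2 1 = q ^ 6 * es x 4 * G 0 2 1
    simp only [Rot_ev_0_2_1, Rot_ev_1_3_0, Rot_ev_2_1_3, Rot_ev_3_0_2, es4_4]
    ring
  · exact absurd rfl hcd
  · show Rot q x (Rot q x (Rot q x (Rot q x G))) 0 2 3 = q ^ 6 * es x 4 * G 0 2 3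
    simp only [Rot_ev_0_2_3, Rot_ev_1_0_2, Rot_ev_2_3_1, Rot_ev_3_1_0, es4_4]
    ring
  · exact absurd rfl hbd
  · show Rot q x (Rot q x (Rot q x (Rot q x G))) 0 3 1 = q ^ 6 * es x 4 * G 0 3 1
    simp only [Rot_ev_0_3_1, Rot_ev_1_2_0, Rot_ev_2_0_3, Rot_ev_3_1_2, es4_4]
    ring
  · show Rot q x (Rot q x (Rot q x (Rot q x G))) 0 3 2 = q ^ 6 * es x 4 * G 0 3 2
    simp only [Rot_ev_0_3_2, Rot_ev_1_0_3, Rot_ev_2_1_0, Rot_ev_3_2_1, es4_4]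
    ring
  · exact absurd rfl hcd
  · exact absurd rfl hcd
  · exact absurd rfl hbd
  · show Rot q x (Rot q x (Rot q x (Rot q x G))) 1 0 2 = q ^ 6 * es x 4 * G 1 0 2
    simp only [Rot_ev_0_2_3, Rot_ev_1_0_2, Rot_ev_2_3_1, Rot_ev_3_1_0, es4_4]
    ring
  · show Rot q x (Rot q x (Rot q x (Rot q x G))) 1 0 3 = q ^ 6 * es x 4 * G 1 0 3
    simp only [Rot_ev_0_3_2, Rot_ev_1_0_3, Rot_ev_2_1_0, Rot_ev_3_2_1, es4_4]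
    ring
  · exact absurd rfl hbc
  · exact absurd rfl hbc
  · exact absurd rfl hbc
  · exact absurd rfl hbc
  · show Rot q x (Rot q x (Rot q x (Rot q x G))) 1 2 0 = q ^ 6 * es x 4 * G 1 2 0
    simp only [Rot_ev_0_3_1, Rot_ev_1_2_0, Rot_ev_2_0_3, Rot_ev_3_1_2, es4_4]
    ring
  · exact absurd rfl hbd
  · exact absurd rfl hcd
  · show Rot q x (Rot q x (Rot q x (Rot q x G))) 1 2 3 = q ^ 6 * es x 4 * G 1 2 3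
    simp only [Rot_ev_0_1_2, Rot_ev_1_2_3, Rot_ev_2_3_0, Rot_ev_3_0_1, es4_4]
    ring
  · show Rot q x (Rot q x (Rot q x (Rot q x G))) 1 3 0 = q ^ 6 * es x 4 * G 1 3 0
    simp only [Rot_ev_0_2_1, Rot_ev_1_3_0, Rot_ev_2_1_3, Rot_ev_3_0_2, es4_4]
    ring
  · exact absurd rfl hbd
  · show Rot q x (Rot q x (Rot q x (Rot q x G))) 1 3 2 = q ^ 6 * es x 4 * G 1 3 2
    simp only [Rot_ev_0_1_3, Rot_ev_1_3_2, Rot_ev_2_0_1, Rot_ev_3_2_0, es4_4]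
    ring
  · exact absurd rfl hcd
  · exact absurd rfl hcd
  · show Rot q x (Rot q x (Rot q x (Rot q x G))) 2 0 1 = q ^ 6 * es x 4 * G 2 0 1
    simp only [Rot_ev_0_1_3, Rot_ev_1_3_2, Rot_ev_2_0_1, Rot_ev_3_2_0, es4_4]
    ring
  · exact absurd rfl hbd
  · show Rot q x (Rot q x (Rot q x (Rot q x G))) 2 0 3 = q ^ 6 * es x 4 * G 2 0 3
    simp only [Rot_ev_0_3_1, Rot_ev_1_2_0, Rot_ev_2_0_3, Rot_ev_3_1_2, es4_4]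
    ring
  · show Rot q x (Rot q x (Rot q x (Rot q x G))) 2 1 0 = q ^ 6 * es x 4 * G 2 1 0
    simp only [Rot_ev_0_3_2, Rot_ev_1_0_3, Rot_ev_2_1_0, Rot_ev_3_2_1, es4_4]
    ring
  · exact absurd rfl hcd
  · exact absurd rfl hbd
  · show Rot q x (Rot q x (Rot q x (Rot q x G))) 2 1 3 = q ^ 6 * es x 4 * G 2 1 3
    simp only [Rot_ev_0_2_1, Rot_ev_1_3_0, Rot_ev_2_1_3, Rot_ev_3_0_2, es4_4]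
    ring
  · exact absurd rfl hbc
  · exact absurd rfl hbc
  · exact absurd rfl hbc
  · exact absurd rfl hbc
  · show Rot q x (Rot q x (Rot q x (Rot q x G))) 2 3 0 = q ^ 6 * es x 4 * G 2 3 0
    simp only [Rot_ev_0_1_2, Rot_ev_1_2_3, Rot_ev_2_3_0, Rot_ev_3_0_1, es4_4]
    ring
  · show Rot q x (Rot q x (Rot q x (Rot q x G))) 2 3 1 = q ^ 6 * es x 4 * G 2 3 1
    simp only [Rot_ev_0_2_3, Rot_ev_1_0_2, Rot_ev_2_3_1, Rot_ev_3_1_0, es4_4]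
    ring
  · exact absurd rfl hbd
  · exact absurd rfl hcd
  · exact absurd rfl hcd
  · show Rot q x (Rot q x (Rot q x (Rot q x G))) 3 0 1 = q ^ 6 * es x 4 * G 3 0 1
    simp only [Rot_ev_0_1_2, Rot_ev_1_2_3, Rot_ev_2_3_0, Rot_ev_3_0_1, es4_4]
    ring
  · show Rot q x (Rot q x (Rot q x (Rot q x G))) 3 0 2 = q ^ 6 * es x 4 * G 3 0 2
    simp only [Rot_ev_0_2_1, Rot_ev_1_3_0, Rot_ev_2_1_3, Rot_ev_3_0_2, es4_4]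
    ring
  · exact absurd rfl hbd
  · show Rot q x (Rot q x (Rot q x (Rot q x G))) 3 1 0 = q ^ 6 * es x 4 * G 3 1 0
    simp only [Rot_ev_0_2_3, Rot_ev_1_0_2, Rot_ev_2_3_1, Rot_ev_3_1_0, es4_4]
    ring
  · exact absurd rfl hcd
  · show Rot q x (Rot q x (Rot q x (Rot q x G))) 3 1 2 = q ^ 6 * es x 4 * G 3 1 2
    simp only [Rot_ev_0_3_1, Rot_ev_1_2_0, Rot_ev_2_0_3, Rot_ev_3_1_2, es4_4]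
    ring
  · exact absurd rfl hbd
  · show Rot q x (Rot q x (Rot q x (Rot q x G))) 3 2 0 = q ^ 6 * es x 4 * G 3 2 0
    simp only [Rot_ev_0_1_3, Rot_ev_1_3_2, Rot_ev_2_0_1, Rot_ev_3_2_0, es4_4]
    ring
  · show Rot q x (Rot q x (Rot q x (Rot q x G))) 3 2 1 = q ^ 6 * es x 4 * G 3 2 1
    simp only [Rot_ev_0_3_2, Rot_ev_1_0_3, Rot_ev_2_1_0, Rot_ev_3_2_1, es4_4]
    ring
  · exact absurd rfl hcd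
  · exact absurd rfl hbd
  · exact absurd rfl hbc
  · exact absurd rfl hbc
  · exact absurd rfl hbc
  · exact absurd rfl hbc

lemma gD0_eq (q : A) (x : Fin 4 → A) :
    ∀ u v : Fin 4, u ≠ v → Dd q x 0 u = gD0 q x u v :=
  offdiag4
    (by simp only [Dd, es_zero, gD0])
    (by simp only [Dd, es_zero, gD0])
    (by simp only [Dd, es_zero, gD0])
    (by simp only [Dd, es_zero, gD0])
    (by simp only [Dd, es_zero, gD0])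
    (by simp only [Dd, es_zero, gD0])
    (by simp only [Dd, es_zero, gD0])
    (by simp only [Dd, es_zero, gD0])
    (by simp only [Dd, es_zero, gD0])
    (by simp only [Dd, es_zero, gD0])
    (by simp only [Dd, es_zero, gD0])
    (by simp only [Dd, es_zero, gD0])

lemma gD1_eq (q : A) (x : Fin 4 → A) :
    ∀ u v : Fin 4, u ≠ v → Dd q x 1 u = gD1 q x u v :=
  offdiag4
    (by simp only [Dd, es4_1, gD1, ew4_0_0, ew4_1_0, ew4_2_0, ew4_3_0]; ring)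
    (by simp only [Dd, es4_1, gD1, ew4_0_0, ew4_1_0, ew4_2_0, ew4_3_0]; ring)
    (by simp only [Dd, es4_1, gD1, ew4_0_0, ew4_1_0, ew4_2_0, ew4_3_0]; ring)
    (by simp only [Dd, es4_1, gD1, ew4_0_1, ew4_1_1, ew4_2_1, ew4_3_1]; ring)
    (by simp only [Dd, es4_1, gD1, ew4_0_1, ew4_1_1, ew4_2_1, ew4_3_1]; ring)
    (by simp only [Dd, es4_1, gD1, ew4_0_1, ew4_1_1, ew4_2_1, ew4_3_1]; ring)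
    (by simp only [Dd, es4_1, gD1, ew4_0_2, ew4_1_2, ew4_2_2, ew4_3_2]; ring)
    (by simp only [Dd, es4_1, gD1, ew4_0_2, ew4_1_2, ew4_2_2, ew4_3_2]; ring)
    (by simp only [Dd, es4_1, gD1, ew4_0_2, ew4_1_2, ew4_2_2, ew4_3_2]; ring)
    (by simp only [Dd, es4_1, gD1, ew4_0_3, ew4_1_3, ew4_2_3, ew4_3_3]; ring)
    (by simp only [Dd, es4_1, gD1, ew4_0_3, ew4_1_3, ew4_2_3, ew4_3_3]; ring)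
    (by simp only [Dd, es4_1, gD1, ew4_0_3, ew4_1_3, ew4_2_3, ew4_3_3]; ring)

lemma gD2_eq (q : A) (x : Fin 4 → A) :
    ∀ u v : Fin 4, u ≠ v → Dd q x 2 u = gD2 q x u v :=
  offdiag4
    (by simp only [Dd, es4_2, gD2, ew4_0_0, ew4_1_0, ew4_2_0, ew4_3_0]; ring)
    (by simp only [Dd, es4_2, gD2, ew4_0_0, ew4_1_0, ew4_2_0, ew4_3_0]; ring)
    (by simp only [Dd, es4_2, gD2, ew4_0_0, ew4_1_0, ew4_2_0, ew4_3_0]; ring)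
    (by simp only [Dd, es4_2, gD2, ew4_0_1, ew4_1_1, ew4_2_1, ew4_3_1]; ring)
    (by simp only [Dd, es4_2, gD2, ew4_0_1, ew4_1_1, ew4_2_1, ew4_3_1]; ring)
    (by simp only [Dd, es4_2, gD2, ew4_0_1, ew4_1_1, ew4_2_1, ew4_3_1]; ring)
    (by simp only [Dd, es4_2, gD2, ew4_0_2, ew4_1_2, ew4_2_2, ew4_3_2]; ring)
    (by simp only [Dd, es4_2, gD2, ew4_0_2, ew4_1_2, ew4_2_2, ew4_3_2]; ring)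
    (by simp only [Dd, es4_2, gD2, ew4_0_2, ew4_1_2, ew4_2_2, ew4_3_2]; ring)
    (by simp only [Dd, es4_2, gD2, ew4_0_3, ew4_1_3, ew4_2_3, ew4_3_3]; ring)
    (by simp only [Dd, es4_2, gD2, ew4_0_3, ew4_1_3, ew4_2_3, ew4_3_3]; ring)
    (by simp only [Dd, es4_2, gD2, ew4_0_3, ew4_1_3, ew4_2_3, ew4_3_3]; ring)

lemma gD3_eq (q : A) (x : Fin 4 → A) :
    ∀ u v : Fin 4, u ≠ v → Dd q x 3 u = gD3 q x u v :=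
  offdiag4
    (by simp only [Dd, es4_3, gD3, ew4_0_0, ew4_1_0, ew4_2_0, ew4_3_0]; ring)
    (by simp only [Dd, es4_3, gD3, ew4_0_0, ew4_1_0, ew4_2_0, ew4_3_0]; ring)
    (by simp only [Dd, es4_3, gD3, ew4_0_0, ew4_1_0, ew4_2_0, ew4_3_0]; ring)
    (by simp only [Dd, es4_3, gD3, ew4_0_1, ew4_1_1, ew4_2_1, ew4_3_1]; ring)
    (by simp only [Dd, es4_3, gD3, ew4_0_1, ew4_1_1, ew4_2_1, ew4_3_1]; ring)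
    (by simp only [Dd, es4_3, gD3, ew4_0_1, ew4_1_1, ew4_2_1, ew4_3_1]; ring)
    (by simp only [Dd, es4_3, gD3, ew4_0_2, ew4_1_2, ew4_2_2, ew4_3_2]; ring)
    (by simp only [Dd, es4_3, gD3, ew4_0_2, ew4_1_2, ew4_2_2, ew4_3_2]; ring)
    (by simp only [Dd, es4_3, gD3, ew4_0_2, ew4_1_2, ew4_2_2, ew4_3_2]; ring)
    (by simp only [Dd, es4_3, gD3, ew4_0_3, ew4_1_3, ew4_2_3, ew4_3_3]; ring)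
    (by simp only [Dd, es4_3, gD3, ew4_0_3, ew4_1_3, ew4_2_3, ew4_3_3]; ring)
    (by simp only [Dd, es4_3, gD3, ew4_0_3, ew4_1_3, ew4_2_3, ew4_3_3]; ring)

lemma Dd4_zero (q : A) (x : Fin 4 → A) (s : ℕ) (hs : 4 ≤ s) (u : Fin 4) : Dd q x s u = 0 := by
  obtain ⟨k, rfl⟩ : ∃ k, s = k + 4 := ⟨s - 4, by omega⟩
  cases k with
  | zero =>
    revert u
    exact all4 (by simp only [Dd, zero_add, es4_4, ew4_0_0]; ring)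
      (by simp only [Dd, zero_add, es4_4, ew4_1_1]; ring)
      (by simp only [Dd, zero_add, es4_4, ew4_2_2]; ring)
      (by simp only [Dd, zero_add, es4_4, ew4_3_3]; ring)
  | succ k =>
    have h := es4_big (fun t => x t * ew q t u) k
    unfold Dd
    rw [show k + 1 + 4 = k + 5 by omega]
    exact h

end Vale.Agent.Lib.P066
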