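import Mathlib
import Vale.Agent.Lib.P066.FourTab

namespace Vale.Agent.Lib.P066

open Finset Polynomial

variable {A : Type*} [CommRing A]

lemma rel_Om_S1 (q : A) (x : Fin 4 → A) :
    ∀ u v : Fin 4, u ≠ v → Om q x (gS1 q x) u v
      = q ^ 1 * gD2 q x u v + 1 * gS2 q x u v :=
  offdiag4
    (by simp only [Om_ev_0_1, gD2, gS1, gS2]; ring)
    (by simp only [Om_ev_0_2, gD2, gS1, gS2]; ring)
    (by simp only [Om_ev_0_3, gD2, gS1, gS2]; ring)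
    (by simp only [Om_ev_1_0, gD2, gS1, gS2]; ring)
    (by simp only [Om_ev_1_2, gD2, gS1, gS2]; ring)
    (by simp only [Om_ev_1_3, gD2, gS1, gS2]; ring)
    (by simp only [Om_ev_2_0, gD2, gS1, gS2]; ring)
    (by simp only [Om_ev_2_1, gD2, gS1, gS2]; ring)
    (by simp only [Om_ev_2_3, gD2, gS1, gS2]; ring)
    (by simp only [Om_ev_3_0, gD2, gS1, gS2]; ring)
    (by simp only [Om_ev_3_1, gD2, gS1, gS2]; ring)
    (by simp only [Om_ev_3_2, gD2, gS1, gS2]; ring)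

lemma rel_Om_S2 (q : A) (x : Fin 4 → A) :
    ∀ u v : Fin 4, u ≠ v → Om q x (gS2 q x) u v
      = (q ^ 1 + q ^ 2) * gD3 q x u v :=
  offdiag4
    (by simp only [Om_ev_0_1, gD3, gS2]; ring)
    (by simp only [Om_ev_0_2, gD3, gS2]; ring)
    (by simp only [Om_ev_0_3, gD3, gS2]; ring)
    (by simp only [Om_ev_1_0, gD3, gS2]; ring)
    (by simp only [Om_ev_1_2, gD3, gS2]; ring)
    (by simp only [Om_ev_1_3, gD3, gS2]; ring)
    (by simp only [Om_ev_2_0, gD3, gS2]; ring)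
    (by simp only [Om_ev_2_1, gD3, gS2]; ring)
    (by simp only [Om_ev_2_3, gD3, gS2]; ring)
    (by simp only [Om_ev_3_0, gD3, gS2]; ring)
    (by simp only [Om_ev_3_1, gD3, gS2]; ring)
    (by simp only [Om_ev_3_2, gD3, gS2]; ring)

lemma rel_Om_D0 (q : A) (x : Fin 4 → A) :
    ∀ u v : Fin 4, u ≠ v → Om q x (gD0 q x) u v
      = 1 * gS1 q x u v :=
  offdiag4
    (by simp only [Om_ev_0_1, gD0, gS1]; ring)
    (by simp only [Om_ev_0_2, gD0, gS1]; ring)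
    (by simp only [Om_ev_0_3, gD0, gS1]; ring)
    (by simp only [Om_ev_1_0, gD0, gS1]; ring)
    (by simp only [Om_ev_1_2, gD0, gS1]; ring)
    (by simp only [Om_ev_1_3, gD0, gS1]; ring)
    (by simp only [Om_ev_2_0, gD0, gS1]; ring)
    (by simp only [Om_ev_2_1, gD0, gS1]; ring)
    (by simp only [Om_ev_2_3, gD0, gS1]; ring)
    (by simp only [Om_ev_3_0, gD0, gS1]; ring)
    (by simp only [Om_ev_3_1, gD0, gS1]; ring)
    (by simp only [Om_ev_3_2, gD0, gS1]; ring)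

lemma rel_Om_D1 (q : A) (x : Fin 4 → A) :
    ∀ u v : Fin 4, u ≠ v → Om q x (gD1 q x) u v
      = 1 * gX01 q x u v :=
  offdiag4
    (by simp only [Om_ev_0_1, gD1, gX01]; ring)
    (by simp only [Om_ev_0_2, gD1, gX01]; ring)
    (by simp only [Om_ev_0_3, gD1, gX01]; ring)
    (by simp only [Om_ev_1_0, gD1, gX01]; ring)
    (by simp only [Om_ev_1_2, gD1, gX01]; ring)
    (by simp only [Om_ev_1_3, gD1, gX01]; ring)
    (by simp only [Om_ev_2_0, gD1, gX01]; ring)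
    (by simp only [Om_ev_2_1, gD1, gX01]; ring)
    (by simp only [Om_ev_2_3, gD1, gX01]; ring)
    (by simp only [Om_ev_3_0, gD1, gX01]; ring)
    (by simp only [Om_ev_3_1, gD1, gX01]; ring)
    (by simp only [Om_ev_3_2, gD1, gX01]; ring)

lemma rel_Om_D2 (q : A) (x : Fin 4 → A) :
    ∀ u v : Fin 4, u ≠ v → Om q x (gD2 q x) u v
      = q ^ 2 * es x 3 * gD0 q x u v + 1 * gX02 q x u v :=
  offdiag4
    (by simp only [Om_ev_0_1, gD0, gD2, gX02, es4_3]; ring)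
    (by simp only [Om_ev_0_2, gD0, gD2, gX02, es4_3]; ring)
    (by simp only [Om_ev_0_3, gD0, gD2, gX02, es4_3]; ring)
    (by simp only [Om_ev_1_0, gD0, gD2, gX02, es4_3]; ring)
    (by simp only [Om_ev_1_2, gD0, gD2, gX02, es4_3]; ring)
    (by simp only [Om_ev_1_3, gD0, gD2, gX02, es4_3]; ring)
    (by simp only [Om_ev_2_0, gD0, gD2, gX02, es4_3]; ring)
    (by simp only [Om_ev_2_1, gD0, gD2, gX02, es4_3]; ring)
    (by simp only [Om_ev_2_3, gD0, gD2, gX02, es4_3]; ring)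
    (by simp only [Om_ev_3_0, gD0, gD2, gX02, es4_3]; ring)
    (by simp only [Om_ev_3_1, gD0, gD2, gX02, es4_3]; ring)
    (by simp only [Om_ev_3_2, gD0, gD2, gX02, es4_3]; ring)

lemma rel_Om_D3 (q : A) (x : Fin 4 → A) :
    ∀ u v : Fin 4, u ≠ v → Om q x (gD3 q x) u v
      = (q ^ 2 + q ^ 3) * es x 4 * gD0 q x u v :=
  offdiag4
    (by simp only [Om_ev_0_1, gD0, gD3, es4_4]; ring)
    (by simp only [Om_ev_0_2, gD0, gD3, es4_4]; ring)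
    (by simp only [Om_ev_0_3, gD0, gD3, es4_4]; ring)
    (by simp only [Om_ev_1_0, gD0, gD3, es4_4]; ring)
    (by simp only [Om_ev_1_2, gD0, gD3, es4_4]; ring)
    (by simp only [Om_ev_1_3, gD0, gD3, es4_4]; ring)
    (by simp only [Om_ev_2_0, gD0, gD3, es4_4]; ring)
    (by simp only [Om_ev_2_1, gD0, gD3, es4_4]; ring)
    (by simp only [Om_ev_2_3, gD0, gD3, es4_4]; ring)
    (by simp only [Om_ev_3_0, gD0, gD3, es4_4]; ring)
    (by simp only [Om_ev_3_1, gD0, gD3, es4_4]; ring)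
    (by simp only [Om_ev_3_2, gD0, gD3, es4_4]; ring)

lemma rel_Om_X01 (q : A) (x : Fin 4 → A) :
    ∀ u v : Fin 4, u ≠ v → Om q x (gX01 q x) u v
      = 1 * gT11 q x u v :=
  offdiag4
    (by simp only [Om_ev_0_1, gT11, gX01]; ring)
    (by simp only [Om_ev_0_2, gT11, gX01]; ring)
    (by simp only [Om_ev_0_3, gT11, gX01]; ring)
    (by simp only [Om_ev_1_0, gT11, gX01]; ring)
    (by simp only [Om_ev_1_2, gT11, gX01]; ring)
    (by simp only [Om_ev_1_3, gT11, gX01]; ring)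
    (by simp only [Om_ev_2_0, gT11, gX01]; ring)
    (by simp only [Om_ev_2_1, gT11, gX01]; ring)
    (by simp only [Om_ev_2_3, gT11, gX01]; ring)
    (by simp only [Om_ev_3_0, gT11, gX01]; ring)
    (by simp only [Om_ev_3_1, gT11, gX01]; ring)
    (by simp only [Om_ev_3_2, gT11, gX01]; ring)

lemma rel_Om_X02 (q : A) (x : Fin 4 → A) :
    ∀ u v : Fin 4, u ≠ v → Om q x (gX02 q x) u v
      = q ^ 3 * es x 4 * gD0 q x u v + 1 * gT12 q x u v :=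
  offdiag4
    (by simp only [Om_ev_0_1, gD0, gT12, gX02, es4_4]; ring)
    (by simp only [Om_ev_0_2, gD0, gT12, gX02, es4_4]; ring)
    (by simp only [Om_ev_0_3, gD0, gT12, gX02, es4_4]; ring)
    (by simp only [Om_ev_1_0, gD0, gT12, gX02, es4_4]; ring)
    (by simp only [Om_ev_1_2, gD0, gT12, gX02, es4_4]; ring)
    (by simp only [Om_ev_1_3, gD0, gT12, gX02, es4_4]; ring)
    (by simp only [Om_ev_2_0, gD0, gT12, gX02, es4_4]; ring)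
    (by simp only [Om_ev_2_1, gD0, gT12, gX02, es4_4]; ring)
    (by simp only [Om_ev_2_3, gD0, gT12, gX02, es4_4]; ring)
    (by simp only [Om_ev_3_0, gD0, gT12, gX02, es4_4]; ring)
    (by simp only [Om_ev_3_1, gD0, gT12, gX02, es4_4]; ring)
    (by simp only [Om_ev_3_2, gD0, gT12, gX02, es4_4]; ring)

lemma rel_Om_X12 (q : A) (x : Fin 4 → A) :
    ∀ u v : Fin 4, u ≠ v → Om q x (gX12 q x) u v
      = q ^ 4 * es x 4 * gD1 q x u v + q ^ 3 * es x 2 * gD3 q x u v + 1 * gT22 q x u v :=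
  offdiag4
    (by simp only [Om_ev_0_1, gD1, gD3, gT22, gX12, es4_2, es4_4]; ring)
    (by simp only [Om_ev_0_2, gD1, gD3, gT22, gX12, es4_2, es4_4]; ring)
    (by simp only [Om_ev_0_3, gD1, gD3, gT22, gX12, es4_2, es4_4]; ring)
    (by simp only [Om_ev_1_0, gD1, gD3, gT22, gX12, es4_2, es4_4]; ring)
    (by simp only [Om_ev_1_2, gD1, gD3, gT22, gX12, es4_2, es4_4]; ring)
    (by simp only [Om_ev_1_3, gD1, gD3, gT22, gX12, es4_2, es4_4]; ring)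
    (by simp only [Om_ev_2_0, gD1, gD3, gT22, gX12, es4_2, es4_4]; ring)
    (by simp only [Om_ev_2_1, gD1, gD3, gT22, gX12, es4_2, es4_4]; ring)
    (by simp only [Om_ev_2_3, gD1, gD3, gT22, gX12, es4_2, es4_4]; ring)
    (by simp only [Om_ev_3_0, gD1, gD3, gT22, gX12, es4_2, es4_4]; ring)
    (by simp only [Om_ev_3_1, gD1, gD3, gT22, gX12, es4_2, es4_4]; ring)
    (by simp only [Om_ev_3_2, gD1, gD3, gT22, gX12, es4_2, es4_4]; ring)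

lemma rel_Om_T11 (q : A) (x : Fin 4 → A) :
    ∀ u v : Fin 4, u ≠ v → Om q x (gT11 q x) u v
      = (q ^ 3 + q ^ 4) * es x 4 * gD0 q x u v + q ^ 3 * es x 3 * gD1 q x u v + q ^ 2 * es x 1 * gD3 q x u v + 1 * gX12 q x u v :=
  offdiag4
    (by simp only [Om_ev_0_1, gD0, gD1, gD3, gT11, gX12, es4_1, es4_3, es4_4]; ring)
    (by simp only [Om_ev_0_2, gD0, gD1, gD3, gT11, gX12, es4_1, es4_3, es4_4]; ring)
    (by simp only [Om_ev_0_3, gD0, gD1, gD3, gT11, gX12, es4_1, es4_3, es4_4]; ring)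
    (by simp only [Om_ev_1_0, gD0, gD1, gD3, gT11, gX12, es4_1, es4_3, es4_4]; ring)
    (by simp only [Om_ev_1_2, gD0, gD1, gD3, gT11, gX12, es4_1, es4_3, es4_4]; ring)
    (by simp only [Om_ev_1_3, gD0, gD1, gD3, gT11, gX12, es4_1, es4_3, es4_4]; ring)
    (by simp only [Om_ev_2_0, gD0, gD1, gD3, gT11, gX12, es4_1, es4_3, es4_4]; ring)
    (by simp only [Om_ev_2_1, gD0, gD1, gD3, gT11, gX12, es4_1, es4_3, es4_4]; ring)
    (by simp only [Om_ev_2_3, gD0, gD1, gD3, gT11, gX12, es4_1, es4_3, es4_4]; ring)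
    (by simp only [Om_ev_3_0, gD0, gD1, gD3, gT11, gX12, es4_1, es4_3, es4_4]; ring)
    (by simp only [Om_ev_3_1, gD0, gD1, gD3, gT11, gX12, es4_1, es4_3, es4_4]; ring)
    (by simp only [Om_ev_3_2, gD0, gD1, gD3, gT11, gX12, es4_1, es4_3, es4_4]; ring)

lemma rel_Om_T12 (q : A) (x : Fin 4 → A) :
    ∀ u v : Fin 4, u ≠ v → Om q x (gT12 q x) u v
      = (q ^ 3 + q ^ 4) * es x 4 * gD1 q x u v :=
  offdiag4
    (by simp only [Om_ev_0_1, gD1, gT12, es4_4]; ring)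
    (by simp only [Om_ev_0_2, gD1, gT12, es4_4]; ring)
    (by simp only [Om_ev_0_3, gD1, gT12, es4_4]; ring)
    (by simp only [Om_ev_1_0, gD1, gT12, es4_4]; ring)
    (by simp only [Om_ev_1_2, gD1, gT12, es4_4]; ring)
    (by simp only [Om_ev_1_3, gD1, gT12, es4_4]; ring)
    (by simp only [Om_ev_2_0, gD1, gT12, es4_4]; ring)
    (by simp only [Om_ev_2_1, gD1, gT12, es4_4]; ring)
    (by simp only [Om_ev_2_3, gD1, gT12, es4_4]; ring)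
    (by simp only [Om_ev_3_0, gD1, gT12, es4_4]; ring)
    (by simp only [Om_ev_3_1, gD1, gT12, es4_4]; ring)
    (by simp only [Om_ev_3_2, gD1, gT12, es4_4]; ring)

lemma rel_Om_T22 (q : A) (x : Fin 4 → A) :
    ∀ u v : Fin 4, u ≠ v → Om q x (gT22 q x) u v
      = (q ^ 4 + q ^ 5) * es x 4 * gD2 q x u v :=
  offdiag4
    (by simp only [Om_ev_0_1, gD2, gT22, es4_4]; ring)
    (by simp only [Om_ev_0_2, gD2, gT22, es4_4]; ring)
    (by simp only [Om_ev_0_3, gD2, gT22, es4_4]; ring)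
    (by simp only [Om_ev_1_0, gD2, gT22, es4_4]; ring)
    (by simp only [Om_ev_1_2, gD2, gT22, es4_4]; ring)
    (by simp only [Om_ev_1_3, gD2, gT22, es4_4]; ring)
    (by simp only [Om_ev_2_0, gD2, gT22, es4_4]; ring)
    (by simp only [Om_ev_2_1, gD2, gT22, es4_4]; ring)
    (by simp only [Om_ev_2_3, gD2, gT22, es4_4]; ring)
    (by simp only [Om_ev_3_0, gD2, gT22, es4_4]; ring)
    (by simp only [Om_ev_3_1, gD2, gT22, es4_4]; ring)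
    (by simp only [Om_ev_3_2, gD2, gT22, es4_4]; ring)

lemma rel_cl2_S1 (q : A) (x : Fin 4 → A) :
    ∀ b : Fin 4, cl2 q x (gS1 q x) b
      = (1 + q ^ 1) * Dd q x 2 b :=
  all4
    (by simp only [cl2_ev_0, gS1, Dd, es4_2, ew4_0_0, ew4_1_0, ew4_2_0, ew4_3_0]; ring)
    (by simp only [cl2_ev_1, gS1, Dd, es4_2, ew4_0_1, ew4_1_1, ew4_2_1, ew4_3_1]; ring)
    (by simp only [cl2_ev_2, gS1, Dd, es4_2, ew4_0_2, ew4_1_2, ew4_2_2, ew4_3_2]; ring)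
    (by simp only [cl2_ev_3, gS1, Dd, es4_2, ew4_0_3, ew4_1_3, ew4_2_3, ew4_3_3]; ring)

lemma rel_cl2_S2 (q : A) (x : Fin 4 → A) :
    ∀ b : Fin 4, cl2 q x (gS2 q x) b
      = (1 + q ^ 1 + q ^ 2) * Dd q x 3 b :=
  all4
    (by simp only [cl2_ev_0, gS2, Dd, es4_3, ew4_0_0, ew4_1_0, ew4_2_0, ew4_3_0]; ring)
    (by simp only [cl2_ev_1, gS2, Dd, es4_3, ew4_0_1, ew4_1_1, ew4_2_1, ew4_3_1]; ring)
    (by simp only [cl2_ev_2, gS2, Dd, es4_3, ew4_0_2, ew4_1_2, ew4_2_2, ew4_3_2]; ring)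
    (by simp only [cl2_ev_3, gS2, Dd, es4_3, ew4_0_3, ew4_1_3, ew4_2_3, ew4_3_3]; ring)

lemma rel_cl2_D0 (q : A) (x : Fin 4 → A) :
    ∀ b : Fin 4, cl2 q x (gD0 q x) b
      = 1 * Dd q x 1 b :=
  all4
    (by simp only [cl2_ev_0, gD0, Dd, es4_1, ew4_0_0, ew4_1_0, ew4_2_0, ew4_3_0]; ring)
    (by simp only [cl2_ev_1, gD0, Dd, es4_1, ew4_0_1, ew4_1_1, ew4_2_1, ew4_3_1]; ring)
    (by simp only [cl2_ev_2, gD0, Dd, es4_1, ew4_0_2, ew4_1_2, ew4_2_2, ew4_3_2]; ring)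
    (by simp only [cl2_ev_3, gD0, Dd, es4_1, ew4_0_3, ew4_1_3, ew4_2_3, ew4_3_3]; ring)

lemma rel_cl2_D1 (q : A) (x : Fin 4 → A) :
    ∀ b : Fin 4, cl2 q x (gD1 q x) b
      = q ^ 1 * es x 2 * Dd q x 0 b + 1 * Dd q x 2 b :=
  all4
    (by simp only [cl2_ev_0, gD1, Dd, es_zero, es4_2, ew4_0_0, ew4_1_0, ew4_2_0, ew4_3_0]; ring)
    (by simp only [cl2_ev_1, gD1, Dd, es_zero, es4_2, ew4_0_1, ew4_1_1, ew4_2_1, ew4_3_1]; ring)
    (by simp only [cl2_ev_2, gD1, Dd, es_zero, es4_2, ew4_0_2, ew4_1_2, ew4_2_2, ew4_3_2]; ring)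
    (by simp only [cl2_ev_3, gD1, Dd, es_zero, es4_2, ew4_0_3, ew4_1_3, ew4_2_3, ew4_3_3]; ring)

lemma rel_cl2_D2 (q : A) (x : Fin 4 → A) :
    ∀ b : Fin 4, cl2 q x (gD2 q x) b
      = (q ^ 1 + q ^ 2) * es x 3 * Dd q x 0 b + 1 * Dd q x 3 b :=
  all4
    (by simp only [cl2_ev_0, gD2, Dd, es_zero, es4_3, ew4_0_0, ew4_1_0, ew4_2_0, ew4_3_0]; ring)
    (by simp only [cl2_ev_1, gD2, Dd, es_zero, es4_3, ew4_0_1, ew4_1_1, ew4_2_1, ew4_3_1]; ring)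
    (by simp only [cl2_ev_2, gD2, Dd, es_zero, es4_3, ew4_0_2, ew4_1_2, ew4_2_2, ew4_3_2]; ring)
    (by simp only [cl2_ev_3, gD2, Dd, es_zero, es4_3, ew4_0_3, ew4_1_3, ew4_2_3, ew4_3_3]; ring)

lemma rel_cl2_D3 (q : A) (x : Fin 4 → A) :
    ∀ b : Fin 4, cl2 q x (gD3 q x) b
      = (q ^ 1 + q ^ 2 + q ^ 3) * es x 4 * Dd q x 0 b :=
  all4
    (by simp only [cl2_ev_0, gD3, Dd, es_zero, es4_4]; ring)
    (by simp only [cl2_ev_1, gD3, Dd, es_zero, es4_4]; ring)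
    (by simp only [cl2_ev_2, gD3, Dd, es_zero, es4_4]; ring)
    (by simp only [cl2_ev_3, gD3, Dd, es_zero, es4_4]; ring)

lemma rel_cl2_X01 (q : A) (x : Fin 4 → A) :
    ∀ b : Fin 4, cl2 q x (gX01 q x) b
      = q ^ 2 * es x 3 * Dd q x 0 b + q ^ 1 * es x 1 * Dd q x 2 b + (1 + q ^ 1) * Dd q x 3 b :=
  all4
    (by simp only [cl2_ev_0, gX01, Dd, es_zero, es4_1, es4_2, es4_3, ew4_0_0, ew4_1_0, ew4_2_0, ew4_3_0]; ring)
    (by simp only [cl2_ev_1, gX01, Dd, es_zero, es4_1, es4_2, es4_3, ew4_0_1, ew4_1_1, ew4_2_1, ew4_3_1]; ring)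
    (by simp only [cl2_ev_2, gX01, Dd, es_zero, es4_1, es4_2, es4_3, ew4_0_2, ew4_1_2, ew4_2_2, ew4_3_2]; ring)
    (by simp only [cl2_ev_3, gX01, Dd, es_zero, es4_1, es4_2, es4_3, ew4_0_3, ew4_1_3, ew4_2_3, ew4_3_3]; ring)

lemma rel_cl2_X02 (q : A) (x : Fin 4 → A) :
    ∀ b : Fin 4, cl2 q x (gX02 q x) b
      = (q ^ 2 + q ^ 3) * es x 4 * Dd q x 0 b + q ^ 1 * es x 1 * Dd q x 3 b :=
  all4
    (by simp only [cl2_ev_0, gX02, Dd, es_zero, es4_1, es4_3, es4_4, ew4_0_0, ew4_1_0, ew4_2_0, ew4_3_0]; ring)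
    (by simp only [cl2_ev_1, gX02, Dd, es_zero, es4_1, es4_3, es4_4, ew4_0_1, ew4_1_1, ew4_2_1, ew4_3_1]; ring)
    (by simp only [cl2_ev_2, gX02, Dd, es_zero, es4_1, es4_3, es4_4, ew4_0_2, ew4_1_2, ew4_2_2, ew4_3_2]; ring)
    (by simp only [cl2_ev_3, gX02, Dd, es_zero, es4_1, es4_3, es4_4, ew4_0_3, ew4_1_3, ew4_2_3, ew4_3_3]; ring)

lemma rel_cl2_X12 (q : A) (x : Fin 4 → A) :
    ∀ b : Fin 4, cl2 q x (gX12 q x) b
      = (q ^ 3 + q ^ 4) * es x 4 * Dd q x 1 b + (q ^ 2 + q ^ 3) * es x 2 * Dd q x 3 b :=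
  all4
    (by simp only [cl2_ev_0, gX12, Dd, es4_1, es4_2, es4_3, es4_4, ew4_0_0, ew4_1_0, ew4_2_0, ew4_3_0]; ring)
    (by simp only [cl2_ev_1, gX12, Dd, es4_1, es4_2, es4_3, es4_4, ew4_0_1, ew4_1_1, ew4_2_1, ew4_3_1]; ring)
    (by simp only [cl2_ev_2, gX12, Dd, es4_1, es4_2, es4_3, es4_4, ew4_0_2, ew4_1_2, ew4_2_2, ew4_3_2]; ring)
    (by simp only [cl2_ev_3, gX12, Dd, es4_1, es4_2, es4_3, es4_4, ew4_0_3, ew4_1_3, ew4_2_3, ew4_3_3]; ring)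

lemma rel_cl2_T11 (q : A) (x : Fin 4 → A) :
    ∀ b : Fin 4, cl2 q x (gT11 q x) b
      = (q ^ 2 + q ^ 3 + q ^ 3 + q ^ 4) * es x 4 * Dd q x 0 b + (q ^ 2 + q ^ 3) * es x 3 * Dd q x 1 b + (q ^ 1 + q ^ 2) * es x 1 * Dd q x 3 b :=
  all4
    (by simp only [cl2_ev_0, gT11, Dd, es_zero, es4_1, es4_3, es4_4, ew4_0_0, ew4_1_0, ew4_2_0, ew4_3_0]; ring)
    (by simp only [cl2_ev_1, gT11, Dd, es_zero, es4_1, es4_3, es4_4, ew4_0_1, ew4_1_1, ew4_2_1, ew4_3_1]; ring)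
    (by simp only [cl2_ev_2, gT11, Dd, es_zero, es4_1, es4_3, es4_4, ew4_0_2, ew4_1_2, ew4_2_2, ew4_3_2]; ring)
    (by simp only [cl2_ev_3, gT11, Dd, es_zero, es4_1, es4_3, es4_4, ew4_0_3, ew4_1_3, ew4_2_3, ew4_3_3]; ring)

lemma rel_cl2_T12 (q : A) (x : Fin 4 → A) :
    ∀ b : Fin 4, cl2 q x (gT12 q x) b
      = (q ^ 2 + q ^ 3 + q ^ 4) * es x 4 * Dd q x 1 b :=
  all4
    (by simp only [cl2_ev_0, gT12, Dd, es4_1, es4_4, ew4_0_0, ew4_1_0, ew4_2_0, ew4_3_0]; ring)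
    (by simp only [cl2_ev_1, gT12, Dd, es4_1, es4_4, ew4_0_1, ew4_1_1, ew4_2_1, ew4_3_1]; ring)
    (by simp only [cl2_ev_2, gT12, Dd, es4_1, es4_4, ew4_0_2, ew4_1_2, ew4_2_2, ew4_3_2]; ring)
    (by simp only [cl2_ev_3, gT12, Dd, es4_1, es4_4, ew4_0_3, ew4_1_3, ew4_2_3, ew4_3_3]; ring)

lemma rel_cl2_T22 (q : A) (x : Fin 4 → A) :
    ∀ b : Fin 4, cl2 q x (gT22 q x) b
      = (q ^ 3 + q ^ 4 + q ^ 5) * es x 4 * Dd q x 2 b :=
  all4
    (by simp only [cl2_ev_0, gT22, Dd, es4_2, es4_4, ew4_0_0, ew4_1_0, ew4_2_0, ew4_3_0]; ring)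
    (by simp only [cl2_ev_1, gT22, Dd, es4_2, es4_4, ew4_0_1, ew4_1_1, ew4_2_1, ew4_3_1]; ring)
    (by simp only [cl2_ev_2, gT22, Dd, es4_2, es4_4, ew4_0_2, ew4_1_2, ew4_2_2, ew4_3_2]; ring)
    (by simp only [cl2_ev_3, gT22, Dd, es4_2, es4_4, ew4_0_3, ew4_1_3, ew4_2_3, ew4_3_3]; ring)


end Vale.Agent.Lib.P066
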