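import Mathlib
import Vale.Agent.Lib.P066.FourTab

namespace Vale.Agent.Lib.P066

open Finset Polynomial

variable {A : Type*} [CommRing A]

lemma rel_C1_S1 (q : A) (x : Fin 4 → A) :
    ∀ u v : Fin 4, u ≠ v → Drop q x (Lift q x (gS1 q x)) u v
      = (q ^ 1 + q ^ 2) * gX02 q x u v :=
  offdiag4
    (by simp only [C1_ev_0_1, gS1, gX02]; ring)
    (by simp only [C1_ev_0_2, gS1, gX02]; ring)
    (by simp only [C1_ev_0_3, gS1, gX02]; ring)
    (by simp only [C1_ev_1_0, gS1, gX02]; ring)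
    (by simp only [C1_ev_1_2, gS1, gX02]; ring)
    (by simp only [C1_ev_1_3, gS1, gX02]; ring)
    (by simp only [C1_ev_2_0, gS1, gX02]; ring)
    (by simp only [C1_ev_2_1, gS1, gX02]; ring)
    (by simp only [C1_ev_2_3, gS1, gX02]; ring)
    (by simp only [C1_ev_3_0, gS1, gX02]; ring)
    (by simp only [C1_ev_3_1, gS1, gX02]; ring)
    (by simp only [C1_ev_3_2, gS1, gX02]; ring)

lemma rel_C1_S2 (q : A) (x : Fin 4 → A) :
    ∀ u v : Fin 4, u ≠ v → Drop q x (Lift q x (gS2 q x)) u v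
      = (q ^ 4 + q ^ 5) * es x 4 * gD0 q x u v :=
  offdiag4
    (by simp only [C1_ev_0_1, gD0, gS2, es4_4]; ring)
    (by simp only [C1_ev_0_2, gD0, gS2, es4_4]; ring)
    (by simp only [C1_ev_0_3, gD0, gS2, es4_4]; ring)
    (by simp only [C1_ev_1_0, gD0, gS2, es4_4]; ring)
    (by simp only [C1_ev_1_2, gD0, gS2, es4_4]; ring)
    (by simp only [C1_ev_1_3, gD0, gS2, es4_4]; ring)
    (by simp only [C1_ev_2_0, gD0, gS2, es4_4]; ring)
    (by simp only [C1_ev_2_1, gD0, gS2, es4_4]; ring)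
    (by simp only [C1_ev_2_3, gD0, gS2, es4_4]; ring)
    (by simp only [C1_ev_3_0, gD0, gS2, es4_4]; ring)
    (by simp only [C1_ev_3_1, gD0, gS2, es4_4]; ring)
    (by simp only [C1_ev_3_2, gD0, gS2, es4_4]; ring)

lemma rel_C1_D0 (q : A) (x : Fin 4 → A) :
    ∀ u v : Fin 4, u ≠ v → Drop q x (Lift q x (gD0 q x)) u v
      = (1 + q ^ 1) * gS2 q x u v :=
  offdiag4
    (by simp only [C1_ev_0_1, gD0, gS2]; ring)
    (by simp only [C1_ev_0_2, gD0, gS2]; ring)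
    (by simp only [C1_ev_0_3, gD0, gS2]; ring)
    (by simp only [C1_ev_1_0, gD0, gS2]; ring)
    (by simp only [C1_ev_1_2, gD0, gS2]; ring)
    (by simp only [C1_ev_1_3, gD0, gS2]; ring)
    (by simp only [C1_ev_2_0, gD0, gS2]; ring)
    (by simp only [C1_ev_2_1, gD0, gS2]; ring)
    (by simp only [C1_ev_2_3, gD0, gS2]; ring)
    (by simp only [C1_ev_3_0, gD0, gS2]; ring)
    (by simp only [C1_ev_3_1, gD0, gS2]; ring)
    (by simp only [C1_ev_3_2, gD0, gS2]; ring)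

lemma rel_C1_D1 (q : A) (x : Fin 4 → A) :
    ∀ u v : Fin 4, u ≠ v → Drop q x (Lift q x (gD1 q x)) u v
      = q ^ 1 * es x 1 * gS2 q x u v + q ^ 1 * gX02 q x u v :=
  offdiag4
    (by simp only [C1_ev_0_1, gD1, gS2, gX02, es4_1]; ring)
    (by simp only [C1_ev_0_2, gD1, gS2, gX02, es4_1]; ring)
    (by simp only [C1_ev_0_3, gD1, gS2, gX02, es4_1]; ring)
    (by simp only [C1_ev_1_0, gD1, gS2, gX02, es4_1]; ring)
    (by simp only [C1_ev_1_2, gD1, gS2, gX02, es4_1]; ring)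
    (by simp only [C1_ev_1_3, gD1, gS2, gX02, es4_1]; ring)
    (by simp only [C1_ev_2_0, gD1, gS2, gX02, es4_1]; ring)
    (by simp only [C1_ev_2_1, gD1, gS2, gX02, es4_1]; ring)
    (by simp only [C1_ev_2_3, gD1, gS2, gX02, es4_1]; ring)
    (by simp only [C1_ev_3_0, gD1, gS2, gX02, es4_1]; ring)
    (by simp only [C1_ev_3_1, gD1, gS2, gX02, es4_1]; ring)
    (by simp only [C1_ev_3_2, gD1, gS2, gX02, es4_1]; ring)

lemma rel_C1_D2 (q : A) (x : Fin 4 → A) :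
    ∀ u v : Fin 4, u ≠ v → Drop q x (Lift q x (gD2 q x)) u v
      = 1 * gX12 q x u v :=
  offdiag4
    (by simp only [C1_ev_0_1, gD2, gX12]; ring)
    (by simp only [C1_ev_0_2, gD2, gX12]; ring)
    (by simp only [C1_ev_0_3, gD2, gX12]; ring)
    (by simp only [C1_ev_1_0, gD2, gX12]; ring)
    (by simp only [C1_ev_1_2, gD2, gX12]; ring)
    (by simp only [C1_ev_1_3, gD2, gX12]; ring)
    (by simp only [C1_ev_2_0, gD2, gX12]; ring)
    (by simp only [C1_ev_2_1, gD2, gX12]; ring)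
    (by simp only [C1_ev_2_3, gD2, gX12]; ring)
    (by simp only [C1_ev_3_0, gD2, gX12]; ring)
    (by simp only [C1_ev_3_1, gD2, gX12]; ring)
    (by simp only [C1_ev_3_2, gD2, gX12]; ring)

lemma rel_C1_D3 (q : A) (x : Fin 4 → A) :
    ∀ u v : Fin 4, u ≠ v → Drop q x (Lift q x (gD3 q x)) u v
      = q ^ 3 * es x 4 * gS1 q x u v :=
  offdiag4
    (by simp only [C1_ev_0_1, gD3, gS1, es4_4]; ring)
    (by simp only [C1_ev_0_2, gD3, gS1, es4_4]; ring)
    (by simp only [C1_ev_0_3, gD3, gS1, es4_4]; ring)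
    (by simp only [C1_ev_1_0, gD3, gS1, es4_4]; ring)
    (by simp only [C1_ev_1_2, gD3, gS1, es4_4]; ring)
    (by simp only [C1_ev_1_3, gD3, gS1, es4_4]; ring)
    (by simp only [C1_ev_2_0, gD3, gS1, es4_4]; ring)
    (by simp only [C1_ev_2_1, gD3, gS1, es4_4]; ring)
    (by simp only [C1_ev_2_3, gD3, gS1, es4_4]; ring)
    (by simp only [C1_ev_3_0, gD3, gS1, es4_4]; ring)
    (by simp only [C1_ev_3_1, gD3, gS1, es4_4]; ring)
    (by simp only [C1_ev_3_2, gD3, gS1, es4_4]; ring)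

lemma rel_C1_X01 (q : A) (x : Fin 4 → A) :
    ∀ u v : Fin 4, u ≠ v → Drop q x (Lift q x (gX01 q x)) u v
      = (1 + q ^ 1) * gX12 q x u v :=
  offdiag4
    (by simp only [C1_ev_0_1, gX01, gX12]; ring)
    (by simp only [C1_ev_0_2, gX01, gX12]; ring)
    (by simp only [C1_ev_0_3, gX01, gX12]; ring)
    (by simp only [C1_ev_1_0, gX01, gX12]; ring)
    (by simp only [C1_ev_1_2, gX01, gX12]; ring)
    (by simp only [C1_ev_1_3, gX01, gX12]; ring)
    (by simp only [C1_ev_2_0, gX01, gX12]; ring)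
    (by simp only [C1_ev_2_1, gX01, gX12]; ring)
    (by simp only [C1_ev_2_3, gX01, gX12]; ring)
    (by simp only [C1_ev_3_0, gX01, gX12]; ring)
    (by simp only [C1_ev_3_1, gX01, gX12]; ring)
    (by simp only [C1_ev_3_2, gX01, gX12]; ring)

lemma rel_C1_X02 (q : A) (x : Fin 4 → A) :
    ∀ u v : Fin 4, u ≠ v → Drop q x (Lift q x (gX02 q x)) u v
      = (q ^ 3 + q ^ 4) * es x 4 * gS1 q x u v :=
  offdiag4
    (by simp only [C1_ev_0_1, gS1, gX02, es4_4]; ring)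
    (by simp only [C1_ev_0_2, gS1, gX02, es4_4]; ring)
    (by simp only [C1_ev_0_3, gS1, gX02, es4_4]; ring)
    (by simp only [C1_ev_1_0, gS1, gX02, es4_4]; ring)
    (by simp only [C1_ev_1_2, gS1, gX02, es4_4]; ring)
    (by simp only [C1_ev_1_3, gS1, gX02, es4_4]; ring)
    (by simp only [C1_ev_2_0, gS1, gX02, es4_4]; ring)
    (by simp only [C1_ev_2_1, gS1, gX02, es4_4]; ring)
    (by simp only [C1_ev_2_3, gS1, gX02, es4_4]; ring)
    (by simp only [C1_ev_3_0, gS1, gX02, es4_4]; ring)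
    (by simp only [C1_ev_3_1, gS1, gX02, es4_4]; ring)
    (by simp only [C1_ev_3_2, gS1, gX02, es4_4]; ring)

lemma rel_C1_X12 (q : A) (x : Fin 4 → A) :
    ∀ u v : Fin 4, u ≠ v → Drop q x (Lift q x (gX12 q x)) u v
      = (q ^ 4 + q ^ 5) * es x 4 * gX01 q x u v :=
  offdiag4
    (by simp only [C1_ev_0_1, gX01, gX12, es4_4]; ring)
    (by simp only [C1_ev_0_2, gX01, gX12, es4_4]; ring)
    (by simp only [C1_ev_0_3, gX01, gX12, es4_4]; ring)
    (by simp only [C1_ev_1_0, gX01, gX12, es4_4]; ring)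
    (by simp only [C1_ev_1_2, gX01, gX12, es4_4]; ring)
    (by simp only [C1_ev_1_3, gX01, gX12, es4_4]; ring)
    (by simp only [C1_ev_2_0, gX01, gX12, es4_4]; ring)
    (by simp only [C1_ev_2_1, gX01, gX12, es4_4]; ring)
    (by simp only [C1_ev_2_3, gX01, gX12, es4_4]; ring)
    (by simp only [C1_ev_3_0, gX01, gX12, es4_4]; ring)
    (by simp only [C1_ev_3_1, gX01, gX12, es4_4]; ring)
    (by simp only [C1_ev_3_2, gX01, gX12, es4_4]; ring)

lemma rel_C1_T11 (q : A) (x : Fin 4 → A) :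
    ∀ u v : Fin 4, u ≠ v → Drop q x (Lift q x (gT11 q x)) u v
      = q ^ 5 * es x 4 * es x 1 * gD0 q x u v + (q ^ 4 + q ^ 4) * es x 4 * gS1 q x u v + q ^ 3 * es x 3 * gS2 q x u v + q ^ 3 * es x 2 * gX02 q x u v :=
  offdiag4
    (by simp only [C1_ev_0_1, gD0, gS1, gS2, gT11, gX02, es4_1, es4_2, es4_3, es4_4]; ring)
    (by simp only [C1_ev_0_2, gD0, gS1, gS2, gT11, gX02, es4_1, es4_2, es4_3, es4_4]; ring)
    (by simp only [C1_ev_0_3, gD0, gS1, gS2, gT11, gX02, es4_1, es4_2, es4_3, es4_4]; ring)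
    (by simp only [C1_ev_1_0, gD0, gS1, gS2, gT11, gX02, es4_1, es4_2, es4_3, es4_4]; ring)
    (by simp only [C1_ev_1_2, gD0, gS1, gS2, gT11, gX02, es4_1, es4_2, es4_3, es4_4]; ring)
    (by simp only [C1_ev_1_3, gD0, gS1, gS2, gT11, gX02, es4_1, es4_2, es4_3, es4_4]; ring)
    (by simp only [C1_ev_2_0, gD0, gS1, gS2, gT11, gX02, es4_1, es4_2, es4_3, es4_4]; ring)
    (by simp only [C1_ev_2_1, gD0, gS1, gS2, gT11, gX02, es4_1, es4_2, es4_3, es4_4]; ring)
    (by simp only [C1_ev_2_3, gD0, gS1, gS2, gT11, gX02, es4_1, es4_2, es4_3, es4_4]; ring)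
    (by simp only [C1_ev_3_0, gD0, gS1, gS2, gT11, gX02, es4_1, es4_2, es4_3, es4_4]; ring)
    (by simp only [C1_ev_3_1, gD0, gS1, gS2, gT11, gX02, es4_1, es4_2, es4_3, es4_4]; ring)
    (by simp only [C1_ev_3_2, gD0, gS1, gS2, gT11, gX02, es4_1, es4_2, es4_3, es4_4]; ring)

lemma rel_C1_T12 (q : A) (x : Fin 4 → A) :
    ∀ u v : Fin 4, u ≠ v → Drop q x (Lift q x (gT12 q x)) u v
      = q ^ 4 * es x 4 * gX01 q x u v :=
  offdiag4
    (by simp only [C1_ev_0_1, gT12, gX01, es4_4]; ring)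
    (by simp only [C1_ev_0_2, gT12, gX01, es4_4]; ring)
    (by simp only [C1_ev_0_3, gT12, gX01, es4_4]; ring)
    (by simp only [C1_ev_1_0, gT12, gX01, es4_4]; ring)
    (by simp only [C1_ev_1_2, gT12, gX01, es4_4]; ring)
    (by simp only [C1_ev_1_3, gT12, gX01, es4_4]; ring)
    (by simp only [C1_ev_2_0, gT12, gX01, es4_4]; ring)
    (by simp only [C1_ev_2_1, gT12, gX01, es4_4]; ring)
    (by simp only [C1_ev_2_3, gT12, gX01, es4_4]; ring)
    (by simp only [C1_ev_3_0, gT12, gX01, es4_4]; ring)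
    (by simp only [C1_ev_3_1, gT12, gX01, es4_4]; ring)
    (by simp only [C1_ev_3_2, gT12, gX01, es4_4]; ring)

lemma rel_C1_T22 (q : A) (x : Fin 4 → A) :
    ∀ u v : Fin 4, u ≠ v → Drop q x (Lift q x (gT22 q x)) u v
      = q ^ 7 * es x 4 * es x 3 * gD0 q x u v + q ^ 5 * es x 4 * gX02 q x u v :=
  offdiag4
    (by simp only [C1_ev_0_1, gD0, gT22, gX02, es4_3, es4_4]; ring)
    (by simp only [C1_ev_0_2, gD0, gT22, gX02, es4_3, es4_4]; ring)
    (by simp only [C1_ev_0_3, gD0, gT22, gX02, es4_3, es4_4]; ring)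
    (by simp only [C1_ev_1_0, gD0, gT22, gX02, es4_3, es4_4]; ring)
    (by simp only [C1_ev_1_2, gD0, gT22, gX02, es4_3, es4_4]; ring)
    (by simp only [C1_ev_1_3, gD0, gT22, gX02, es4_3, es4_4]; ring)
    (by simp only [C1_ev_2_0, gD0, gT22, gX02, es4_3, es4_4]; ring)
    (by simp only [C1_ev_2_1, gD0, gT22, gX02, es4_3, es4_4]; ring)
    (by simp only [C1_ev_2_3, gD0, gT22, gX02, es4_3, es4_4]; ring)
    (by simp only [C1_ev_3_0, gD0, gT22, gX02, es4_3, es4_4]; ring)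
    (by simp only [C1_ev_3_1, gD0, gT22, gX02, es4_3, es4_4]; ring)
    (by simp only [C1_ev_3_2, gD0, gT22, gX02, es4_3, es4_4]; ring)


end Vale.Agent.Lib.P066
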